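import Vale.Agent.P267.H359.Enr
import Vale.Agent.P267.H877.XtThm

/-!
# P267 / helper359: the enriched form of `Asm.XtThm`

`XtFullThm`: one number `d₀ > 0` for the surface; for every good bundle and every rate `N ≥ d₀` the
complete package `XtFull` with the weights `d = d₀/4`, `d' = d₀/2`, and the leaves of block A
(`AnLeaves`) for all other bundles.
-/

set_option linter.unusedVariables false
set_option linter.unusedSectionVars false

open scoped Manifold ContDiff ComplexConjugate Matrix ComplexOrder Topology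
open MeasureTheory Set Filter
open Vale.Agent.P272.K (Cm)

noncomputable section

namespace Vale.Agent.P267.H359

open FL XT XTData H158 H692 H739

/-- the leaves of block A for the cover `M` -/
structure AnLeaves {M : Type} [TopologicalSpace M] [ChartedSpace C2 M] (D : XTData M) (d₀ : ℝ) :
    Prop where
  pos : 0 < d₀
  nf : D.NF
  noK : D.NoFloquetK
  root : ∀ t, 0 < t → t ≤ d₀ → D.RootGap t
  t0K : D.T0KLeaf
  t0E : D.T0ELeaf
  t0O : D.T0OLeaf d₀
  t2 : D.T2Leaf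
  t2s : D.T2sLeaf
  ex : D.ExLeaf
  t1 : D.T1Leaf
  h1O : ∀ (ι : Type) [Fintype ι] [DecidableEq ι] (i₀ : ι) (R : ℝ),
    D.H1Leaf (LB.triv i₀ : LB M ι) i₀ R 0

/-- the enriched form of `Asm.XtThm` -/
def XtFullThm : Prop :=
  ∀ (X : Type) [TopologicalSpace X] [T2Space X] [CompactSpace X] [ConnectedSpace X]
    [ChartedSpace (Cm 2) X] [IsManifold 𝓘(ℂ, Cm 2) ω X] (n : ℕ), IsMinimalVII X n → Asm.Nef X →
    ∀ (B : Asm.Base X), (∀ (m : ℕ) [NeZero m], BlockC.SurfIn (CovM B.hh m) (m * n)) →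
    ∃ d₀ : ℝ, AnLeaves B.D d₀ ∧ ∀ (E : BlockC.ALB (Cov B.hh)) (i₀ : E.ι) (R : ℝ),
      Asm.GoodLB B E i₀ R → ∀ N : ℝ, d₀ ≤ N →
      ∃ (a : Cov B.hh → Fin 2 → ℂ) (α : Cov B.hh → EuclideanSpace ℂ E.ι) (R' : ℝ),
        XtFull B.D E.L a i₀ R R' N α (d₀ / 4) (d₀ / 2)

/-- **the enriched XT-THM.** -/
theorem xtFullThm (hl : LeafThms) (hRR : RRInThm) (hNo : NoFlThm) (hAin : AinThm) :
    XtFullThm := by
  intro X _ _ _ _ _ _ n hX hN B hS
  have : LocallyConnectedSpace X := ChartedSpace.locallyConnectedSpace (Cm 2) X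
  have : ConnectedSpace (Cov B.hh) := Cov.connectedSpace B.prim
  have hNF := hl.nf _ B.D
  have hNoF := hNo X n hX hN B hS
  have hY := hRR X n hX hN B hS
  obtain ⟨d₀, hd₀⟩ := hl.root _ B.D
  have hK := hl.t0K _ B.D hNF hNoF
  have h2 := hl.t2 _ B.D hK
  have h2s := hl.t2s _ B.D hK
  have hA : AnLeaves B.D d₀ :=
    { pos := hd₀.pos
      nf := hNF
      noK := hNoF
      root := fun t ht hts => hd₀.mono ht hts
      t0K := hK
      t0E := hl.t0E _ B.D hNF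
      t0O := hl.t0O _ B.D d₀ hNF hd₀
      t2 := h2
      t2s := h2s
      ex := hl.ex _ B.D h2 h2s
      t1 := hl.t1 _ B.D hNF
      h1O := fun ι _ _ i₀ R => H824.h1Leaf_triv B.D B.γ_eq B.f_eq hY i₀ R }
  refine ⟨d₀, hA, fun E i₀ R hE N hN => ?_⟩
  have htriv : ∀ x, R ≤ |B.D.f x| → E.L.P x = Matrix.single i₀ i₀ 1 := fun x hx =>
    hE.triv x (by rwa [B.f_eq] at hx)
  exact exists_xtFull hA.root hA.pos hA.t0K hA.t0E hA.t0O hA.t2 hA.ex hA.t1 E.L i₀ R htriv
    (H824.h1Leaf_good B.D B.γ_eq B.f_eq hY E.L i₀ R hE.per)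
    (H824.h1Leaf_good_dual B.D B.γ_eq B.f_eq hY E.L i₀ R hE.per)
    (hA.h1O E.ι i₀ R)
    (fun a N hN' hEa => hAin X n hX (by assumption) B hS E i₀ R hE a N hN' hEa) hN

theorem XtFullThm.xtThm (h : XtFullThm) : Asm.XtThm := by
  intro X _ _ _ _ _ _ n hX hN B hS E i₀ R hE
  obtain ⟨d₀, -, h1⟩ := h X n hX hN B hS
  obtain ⟨a, α, R', h2⟩ := h1 E i₀ R hE d₀ le_rfl
  exact ⟨a, α, R', _, _, h2.cone⟩

end Vale.Agent.P267.H359
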