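import Vale.Agent.P267.H706.Leaf

/-!
# P267 / helper359: helper706's `xtCone_of` with the outer limit of the section exported
(the proof is helper706's)
-/

set_option linter.unusedSectionVars false
set_option linter.unusedVariables false

open scoped Manifold ContDiff ComplexConjugate Matrix Topology
open MeasureTheory Set Filter

noncomputable section

namespace Vale.Agent.P267.H359

open Vale.Agent.P267.FL Vale.Agent.P267.XT Vale.Agent.P267.H692 Vale.Agent.P267.H706

variable {M : Type} [TopologicalSpace M] [ChartedSpace C2 M] [IsManifold 𝓘(ℂ, C2) ω M]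
variable {ι : Type} [Fintype ι] [DecidableEq ι]

/-- **XA-FIN**: all data of XT-CONE from the interface propositions of XT-AN. -/
theorem xtCone_out [ConnectedSpace M] (D : XTData M) {L : LB M ι} {i₀ : ι} {a : M → Fin 2 → ℂ}
    {R N d d' : ℝ} (hd : 0 < d) (hdd : d < d') (hN : d + d' ≤ N)
    (hE : D.EndTriv L i₀ a R N)
    (hroot : D.RootGap d')
    (hfr : H378.HasFrames L a)
    (hTE : D.T1 L a (-d) 0)
    (hTE' : D.T1 L.dual (neg a) (-d) 1)
    (hTO : D.T1 (LB.triv i₀) (fun _ _ => 0) (-d) 0)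
    (hTO' : ∀ δ, 0 < δ → δ ≤ d' → D.T1 (LB.triv i₀) (fun _ _ => 0) δ 0)
    (hT2 : ∃ C, D.T2 L.dual (neg a) (ew (-d)) C)
    (hain : ∀ (α : M → EuclideanSpace ℂ ι) (b : ℂ), Reg0 ∞ 0 α → L.Sec α →
      (∀ x i, L.db0 a 0 α x i = 0) → Tendsto (fun x => α x i₀) (comap D.f atTop) (𝓝 1) →
      Tendsto (fun x => α x i₀) (comap D.f atBot) (𝓝 b) → b = 0) :
    ∃ (α : M → EuclideanSpace ℂ ι) (R' A : ℝ), 0 ≤ A ∧ XtCone D L a i₀ R' α d d' ∧
      ∀ x, R' ≤ D.f x → ‖α x - eb i₀‖ ≤ A * Real.exp (-d * D.f x) := by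
  have hd' : 0 < d' := hd.trans hdd
  obtain ⟨α, b, R₀, A, hR₀, hRR₀, hA, hαreg, hαsec, hαhol, hαout, hαbd, hαin⟩ :=
    exists_alpha D hd hdd hN hE hroot hTE (t1s_of_T1 D (hTO' d' hd' le_rfl))
  have hout1 : Tendsto (fun x => α x i₀) (comap D.f atTop) (𝓝 1) := by
    have h1 : Tendsto (fun x => A * Real.exp (-d * D.f x)) (comap D.f atTop) (𝓝 0) := by
      have h2 : Tendsto (fun t : ℝ => A * Real.exp (-d * t)) atTop (𝓝 0) := by
        have h3 : Tendsto (fun t : ℝ => -d * t) atTop atBot :=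
          tendsto_id.const_mul_atTop_of_neg (by linarith)
        have h4 := (Real.tendsto_exp_atBot.comp h3).const_mul A
        simpa using h4
      exact h2.comp tendsto_comap
    rw [tendsto_iff_norm_sub_tendsto_zero]
    refine squeeze_zero' (Eventually.of_forall fun x => norm_nonneg _) ?_ h1
    have h5 : ∀ᶠ x in comap D.f atTop, R₀ ≤ D.f x :=
      tendsto_comap.eventually (eventually_ge_atTop R₀)
    filter_upwards [h5] with x hx
    have h6 := (norm_apply_le (α x - eb i₀) i₀).trans (hαout x hx)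
    simpa using h6
  have hin1 : Tendsto (fun x => α x i₀) (comap D.f atBot) (𝓝 b) := by
    have h1 : Tendsto (fun x => A * Real.exp (d' * D.f x)) (comap D.f atBot) (𝓝 0) := by
      have h2 : Tendsto (fun t : ℝ => A * Real.exp (d' * t)) atBot (𝓝 0) := by
        have h3 : Tendsto (fun t : ℝ => d' * t) atBot atBot :=
          tendsto_id.const_mul_atBot hd'
        have h4 := (Real.tendsto_exp_atBot.comp h3).const_mul A
        simpa using h4
      exact h2.comp tendsto_comap
    rw [tendsto_iff_norm_sub_tendsto_zero]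
    refine squeeze_zero' (Eventually.of_forall fun x => norm_nonneg _) ?_ h1
    have h5 : ∀ᶠ x in comap D.f atBot, D.f x ≤ 0 :=
      tendsto_comap.eventually (eventually_le_atBot 0)
    filter_upwards [h5] with x hx
    exact hαin x hx
  have hb : b = 0 := hain α b hαreg hαsec hαhol hout1 hin1
  have hαcont : Continuous (fun x => ‖α x‖) := hαreg.continuous.norm
  obtain ⟨C₃, hC₃, hC₃'⟩ := bdd_on D hαcont (-R₀) 0
  have hin2 : ∀ x, D.f x ≤ 0 → ‖α x‖ ≤ (A + C₃ * Real.exp (d' * R₀)) * Real.exp (d' * D.f x) := by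
    intro x hx
    have he : 0 < Real.exp (d' * D.f x) := Real.exp_pos _
    rcases le_total (D.f x) (-R₀) with h | h
    · have hP : L.P x = Matrix.single i₀ i₀ 1 := by
        apply hE.ends
        rw [abs_of_nonpos hx]
        linarith
      have h1 : α x = α x i₀ • eb i₀ := by
        have := hαsec x
        rw [hP, act_single] at this
        exact this.symm
      rw [h1, norm_smul, norm_eb, mul_one]
      have h2 := hαin x hx
      rw [hb, sub_zero] at h2
      refine h2.trans (mul_le_mul_of_nonneg_right ?_ he.le)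
      have : 0 ≤ C₃ * Real.exp (d' * R₀) := by positivity
      linarith
    · refine (hC₃' x h hx).trans ?_
      have : 1 ≤ Real.exp (d' * R₀) * Real.exp (d' * D.f x) := by
        rw [← Real.exp_add]
        apply Real.one_le_exp
        nlinarith
      have h3 : C₃ ≤ C₃ * (Real.exp (d' * R₀) * Real.exp (d' * D.f x)) := by nlinarith
      have h4 : 0 ≤ A * Real.exp (d' * D.f x) := by positivity
      calc C₃ ≤ C₃ * (Real.exp (d' * R₀) * Real.exp (d' * D.f x)) := h3
        _ ≤ A * Real.exp (d' * D.f x) + C₃ * (Real.exp (d' * R₀) * Real.exp (d' * D.f x)) := by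
            linarith
        _ = _ := by ring
  set R' : ℝ := R₀ + A / d with hR'
  have hAd : 0 ≤ A / d := by positivity
  have hout2 : ∀ x, R' ≤ D.f x → α x ≠ 0 := by
    intro x hx h0
    have h1 := hαout x (by linarith)
    rw [h0, zero_sub, norm_neg, norm_eb] at h1
    have h2 : A ≤ d * D.f x := by
      have h3 : A / d ≤ D.f x := by linarith
      have h4 := mul_le_mul_of_nonneg_left h3 hd.le
      have h5 : d * (A / d) = A := by field_simp
      linarith
    have h3 : Real.exp (-d * D.f x) ≤ Real.exp (-A) := Real.exp_le_exp.2 (by linarith)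
    have h4 : A * Real.exp (-A) < 1 := by
      have h5 := Real.add_one_le_exp A
      have h6 : Real.exp (-A) * Real.exp A = 1 := by rw [← Real.exp_add]; simp
      nlinarith [Real.exp_pos (-A)]
    have h5 : A * Real.exp (-d * D.f x) ≤ A * Real.exp (-A) := mul_le_mul_of_nonneg_left h3 hA
    linarith
  have hO := t1s_of_T1 D hTO
  refine ⟨α, R', A, hA, ?_, fun x hx => hαout x (by linarith)⟩
  refine
    { d_pos := hd
      d_lt := hdd
      R_pos := by linarith
      hol := hE.hol
      triv := fun x hx => hE.ends x (by linarith)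
      a_in := ?_
      α_reg := hαreg
      α_sec := hαsec
      α_hol := hαhol
      α_bdd := ?_
      α_in := ⟨_, hin2⟩
      α_out := hout2
      α_dense := ?_
      A0 := ?_
      A1 := ?_
      A2 := ?_
      A3 := ?_
      A5 := ?_ }
  · -- a_in
    obtain ⟨C₀, hC₀⟩ := hE.decay
    refine ⟨|C₀|, fun x hx => (hC₀ x).trans ?_⟩
    refine mul_le_mul (le_abs_self _) (Real.exp_le_exp.2 ?_) (Real.exp_pos _).le (abs_nonneg _)
    rw [abs_of_nonpos hx]
    nlinarith
  · -- α_bdd
    refine ⟨A + (A + C₃ * Real.exp (d' * R₀)), fun x => ?_⟩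
    have h0 : 0 ≤ A + C₃ * Real.exp (d' * R₀) := by positivity
    rcases le_total 0 (D.f x) with h | h
    · linarith [hαbd x h]
    · refine (hin2 x h).trans ?_
      have : Real.exp (d' * D.f x) ≤ 1 := Real.exp_le_one_iff.2 (by nlinarith)
      nlinarith
  · -- α_dense
    obtain ⟨x₀, hx₀⟩ := exists_f_ge D R'
    exact dense_ne_zero hfr hαreg hαsec hαhol (hout2 x₀ hx₀)
  · -- A0
    rintro u ⟨hu, C, hC⟩ hu0
    refine hroot.inn u d d hd le_rfl hu hu0 ⟨C, fun x => ?_⟩
    rw [max_self]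
    have := hC x
    rwa [neg_mul] at this
  · -- A1
    rintro w ⟨hw, C, hC⟩ hw0
    obtain ⟨u, hu, hbu, hdu⟩ := hO w hw ⟨C, hC⟩ hw0
    exact ⟨u, ⟨hu, hbu⟩, hdu⟩
  · -- A2
    rintro w hws ⟨hw, C, hC⟩
    obtain ⟨C', hC'⟩ := hT2
    have hC0 : ∀ x, n2 D.h 0 w x ≤ |C| * Real.exp (-d * D.f x) := fun x =>
      (hC x).trans (mul_le_mul_of_nonneg_right (le_abs_self _) (Real.exp_pos _).le)
    obtain ⟨v, hv, hvs, hdv, hvb⟩ := hC' w hw hws (|C| * Real.exp |(-d)|) (by positivity)
      (prof_le_ew D (abs_nonneg _) hC0)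
    exact ⟨v, hvs, ⟨hv, _, le_of_prof_ew D (continuous_n1 D.herm hv) hvb⟩, hdv⟩
  · -- A3
    intro η₁ η₂ hs₁ hw₁ hc₁ hs₂ hw₂ hc₂
    have key : ∀ η : M → Fin 2 → EuclideanSpace ℂ ι, W1 D d η →
        ∃ A, ∀ j, D.p1 0 η j ≤ A * ew (-d) j := by
      rintro η ⟨hη, C, hC⟩
      have hC0 : ∀ x, n1 D.h 0 η x ≤ |C| * Real.exp (-d * D.f x) := fun x =>
        (hC x).trans (mul_le_mul_of_nonneg_right (le_abs_self _) (Real.exp_pos _).le)
      exact ⟨_, prof_le_ew D (abs_nonneg _) hC0⟩
    obtain ⟨c, hc, u, hu, hus, ⟨A', hA'⟩, hdu⟩ := hTE' ![η₁, η₂] (by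
      intro i
      fin_cases i
      · exact ⟨hw₁.reg, hs₁, key _ hw₁, hc₁⟩
      · exact ⟨hw₂.reg, hs₂, key _ hw₂, hc₂⟩)
    refine ⟨c 0, c 1, ?_, u, hus, ⟨hu, |A'| * Real.exp |(-d)|, fun x => ?_⟩, fun x k => ?_⟩
    · by_contra h
      push Not at h
      apply hc
      funext i
      fin_cases i
      · exact h.1
      · exact h.2
    · have := le_of_prof_ew D (continuous_n0 D.herm hu) hA' x
      rwa [n0_zero_exp] at this
    · rw [hdu x k, Fin.sum_univ_two]
      rfl
  · -- A5
    rintro u ⟨hu, C, hC⟩ ε hε ⟨C', hC'⟩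
    have hm : 0 < min ε d' := lt_min hε hd'
    have hm1 : min ε d' ≤ d' := min_le_right _ _
    obtain ⟨b', A', hb'⟩ := lim_in D hroot hm hm1 (t1s_of_T1 D (hTO' _ hm hm1)) hu
      (C := |C|) (fun x hx => by
        refine (hC x).trans (mul_le_mul (le_abs_self _) (Real.exp_le_exp.2 ?_)
          (Real.exp_pos _).le (abs_nonneg _))
        nlinarith)
      (C' := |C'|) (fun x hx => by
        refine (hC' x hx).trans (mul_le_mul (le_abs_self _) (Real.exp_le_exp.2 ?_)
          (Real.exp_pos _).le (abs_nonneg _))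
        exact mul_le_mul_of_nonpos_right (min_le_left _ _) hx)
    exact ⟨b', min ε d', hm, A', hb'⟩

end Vale.Agent.P267.H359
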