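import Vale.Agent.P267.H359.St
import Vale.Agent.P267.H706.Lim

/-!
# P267 / ROUTE S of the endgame (helper359): the division step with constants
-/

set_option linter.unusedVariables false
set_option linter.unusedSectionVars false

open scoped Manifold ContDiff ComplexConjugate Matrix ComplexOrder
open Set Filter Topology

noncomputable section

namespace Vale.Agent.P267.H692

open Vale.Agent.P267.FL Vale.Agent.P267.XT

variable {M : Type} [TopologicalSpace M] [ChartedSpace C2 M] [IsManifold 𝓘(ℂ, C2) ω M]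
variable {ι : Type} [Fintype ι] [DecidableEq ι]
variable {D : XTData M}

/-- scalar form of T0 -/
theorem t0s_of_T0 {i₀ : ι} {δ C : ℝ} (hC : 0 ≤ C)
    (h : D.T0 0 (LB.triv i₀ : LB M ι) (fun _ _ => 0) (ew δ) C) :
    ∀ u : M → ℂ, Reg0 ∞ 0 u → (∃ A, ∀ x, ‖u x‖ ≤ A * Real.exp (δ * D.f x)) →
      ∀ B, 0 ≤ B → (∀ x, n1 D.h 0 (dbar0 0 u) x ≤ B * Real.exp (δ * D.f x)) →
        ∀ x, ‖u x‖ ≤ (C * Real.exp |δ| * Real.exp |δ|) * B * Real.exp (δ * D.f x) := by
  intro u hu hA B hB hb x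
  obtain ⟨A, hA⟩ := hA
  set v : M → EuclideanSpace ℂ ι := fun y => H706.toE i₀ (u y) with hv
  have hvr : Reg0 ∞ 0 v := reg0.2 fun y => (reg0.1 hu y).clm (H706.toE i₀)
  have hvs : (LB.triv i₀ : LB M ι).Sec v := fun y => by
    simp only [hv, H706.toE_apply]
    exact H706.act_smul_eb i₀ _
  have hnv : ∀ y, n0 D.h 0 v y = ‖u y‖ := fun y => by
    rw [H87.n0_zero_eq, hv]
    simp only [H706.toE_apply, norm_smul, H706.norm_eb, mul_one]
  have hdb : (LB.triv i₀ : LB M ι).db0 (fun _ _ => 0) 0 v =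
      fun y i => dbar0 0 u y i • (H706.eb i₀ : EuclideanSpace ℂ ι) := by
    funext y i
    have := dbar0_clm (H706.toE i₀) (reg0.1 hu y) i
    rw [LB.db0, hv, this]
    simp only [LB.triv, H706.toE_apply, zero_smul, add_zero]
    exact H706.act_smul_eb i₀ _
  have h1 : ∀ j, D.p0 0 v j ≤ |A| * Real.exp |δ| * ew δ j := by
    intro j
    refine H706.prof_le_ew D (abs_nonneg A) (fun y => ?_) j
    rw [hnv]
    exact (hA y).trans (mul_le_mul_of_nonneg_right (le_abs_self _) (Real.exp_pos _).le)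
  have h2 : ∀ j, D.p1 0 ((LB.triv i₀ : LB M ι).db0 (fun _ _ => 0) 0 v) j ≤
      B * Real.exp |δ| * ew δ j := by
    intro j
    rw [hdb]
    refine H706.prof_le_ew D hB (fun y => ?_) j
    rw [H706.n1_smul_eb]
    exact hb y
  have h3 := h v hvr hvs ⟨_, h1⟩ _ h2
  have h4 := H706.le_of_prof_ew D (A := C * (B * Real.exp |δ|)) (H87.continuous_n0 D.herm hvr)
    (fun j => h3 j) x
  rw [hnv] at h4
  refine h4.trans (le_of_eq ?_)
  rw [abs_of_nonneg (by positivity)]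
  ring

variable {L : LB M ι} {a : M → Fin 2 → ℂ} {i₀ : ι} {R : ℝ} {α : M → EuclideanSpace ℂ ι} {d d' : ℝ}

/-- **the division step with a uniform constant**: if `∂̄g = ⟨α, b⟩` then `g = ∂̄u + ⟨α, η⟩`,
`∂̄η = b`, with bounds -/
theorem XtCone.div_step (H : XtCone D L a i₀ R α d d')
    (hT2 : ∃ C, 0 ≤ C ∧ D.T2 L.dual (fun x i => -a x i) (ew (-d)) C)
    (hT0 : ∃ C, 0 ≤ C ∧ D.T0 0 (LB.triv i₀ : LB M ι) (fun _ _ => 0) (ew (-d)) C) :
    ∃ C, 0 ≤ C ∧ ∀ (g : M → Fin 2 → ℂ) (b : M → EuclideanSpace ℂ ι) (B : ℝ), 0 ≤ B →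
      Reg1 ∞ 0 g → Reg2 ∞ 0 b → L.dual.Sec b →
      (∀ x, n1 D.h 0 g x ≤ B * Real.exp (-d * D.f x)) →
      (∀ x, n2 D.h 0 b x ≤ B * Real.exp (-d * D.f x)) →
      (∀ x, dbar1 0 g x = pair (α x) (b x)) →
      ∃ (u : M → ℂ) (η : M → Fin 2 → EuclideanSpace ℂ ι), Reg0 ∞ 0 u ∧ Reg1 ∞ 0 η ∧
        L.dual.Sec1 η ∧ (∀ x, L.dual.db1 (neg a) 0 η x = b x) ∧
        (∀ x, ‖u x‖ ≤ C * B * Real.exp (-d * D.f x)) ∧
        (∀ x, n1 D.h 0 η x ≤ C * B * Real.exp (-d * D.f x)) ∧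
        ∀ x i, g x i = dbar0 0 u x i + pair (α x) (η x i) := by
  obtain ⟨C₂, hC₂, hT2⟩ := hT2
  obtain ⟨C₀, hC₀, hT0⟩ := hT0
  obtain ⟨A, hA⟩ := H.α_bdd
  set E := Real.exp |(-d)| with hE
  have hE1 : 1 ≤ E := Real.one_le_exp (abs_nonneg _)
  set K := C₂ * E * E with hK
  have hK0 : 0 ≤ K := by positivity
  set K₀ := C₀ * E * E * (1 + |A| * K) with hK₀
  have hK₀0 : 0 ≤ K₀ := by positivity
  refine ⟨K + K₀, by positivity, fun g b B hB hg hb hbs hgB hbB hgb => ?_⟩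
  -- T2
  obtain ⟨η, hη, hηs, hηb, hηp⟩ := hT2 b hb hbs (B * E) (by positivity) fun j =>
    H706.prof_le_ew D hB hbB j
  have hη1 : ∀ x, n1 D.h 0 η x ≤ K * B * Real.exp (-d * D.f x) := by
    intro x
    have := H706.le_of_prof_ew D (A := C₂ * (B * E)) (continuous_n1 D.herm hη)
      (fun j => hηp j) x
    refine this.trans (le_of_eq ?_)
    rw [abs_of_nonneg (by positivity), hK]
    ring
  have hexp : ∀ x, 0 < Real.exp (-d * D.f x) := fun x => Real.exp_pos _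
  -- the closed form `g - ⟨α, η⟩`
  have hηW : W1 D d η := ⟨hη, _, hη1⟩
  have hpW := hηW.pair H.α_reg H.α_bdd
  have hgW : W1 D d g := ⟨hg, _, hgB⟩
  have h1 : W1 D d (fun x i => g x i - pair (α x) (η x i)) := hgW.sub hpW
  have h2 : ∀ x, dbar1 0 (fun x i => g x i - pair (α x) (η x i)) x = 0 := by
    intro x
    rw [dbar1_sub (reg1.1 hg x) (reg1.1 hpW.reg x), H.dbar_pair1 (reg1.1 hη x) hηs]
    have : L.dual.db1 (neg a) 0 η x = b x := hηb x
    rw [this, hgb, sub_self]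
  obtain ⟨u, hu, hu'⟩ := H.A1 _ h1 h2
  have hdu : dbar0 0 u = fun x i => g x i - pair (α x) (η x i) := by
    funext x i; exact hu' x i
  -- the bound
  have h3 : ∀ x, n1 D.h 0 (dbar0 0 u) x ≤ (1 + |A| * K) * B * Real.exp (-d * D.f x) := by
    intro x
    rw [hdu]
    refine (n1_sub_le D.herm _ _ x).trans ?_
    have e1 := n1_pair_le D.herm α η x
    have e2 : ‖α x‖ * n1 D.h 0 η x ≤ |A| * (K * B * Real.exp (-d * D.f x)) :=
      mul_le_mul ((hA x).trans (le_abs_self _)) (hη1 x) (n1_nonneg _ _) (abs_nonneg _)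
    calc n1 D.h 0 g x + n1 D.h 0 (fun x i => pair (α x) (η x i)) x
        ≤ B * Real.exp (-d * D.f x) + |A| * (K * B * Real.exp (-d * D.f x)) :=
          add_le_add (hgB x) (e1.trans e2)
      _ = _ := by ring
  obtain ⟨A', hA'⟩ := hu.bd
  have h4 := t0s_of_T0 (D := D) hC₀ hT0 u hu.reg ⟨A', hA'⟩ ((1 + |A| * K) * B) (by positivity) h3
  refine ⟨u, η, hu.reg, hη, hηs, hηb, fun x => ?_, fun x => ?_, fun x i => ?_⟩
  · refine (h4 x).trans (mul_le_mul_of_nonneg_right ?_ (hexp x).le)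
    have : C₀ * E * E * ((1 + |A| * K) * B) = K₀ * B := by rw [hK₀]; ring
    rw [this, add_mul]
    have := mul_nonneg hK0 hB
    linarith
  · refine (hη1 x).trans (mul_le_mul_of_nonneg_right ?_ (hexp x).le)
    rw [add_mul]
    have := mul_nonneg hK₀0 hB
    linarith
  · rw [hu']
    ring

end Vale.Agent.P267.H692
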