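import Vale.Agent.P267.H877.XtCore
import Vale.Agent.P267.H359.St2
import Vale.Agent.P267.H359.FinOut
import Vale.Agent.P267.H739.Iface

/-!
# P267 / ROUTE S of the endgame (helper359): `Sol1`, `Sol2` (helper739's interface) from T0, T1, T2,
and the enriched form of helper877's `exists_xtCone`: all bundles with the same weights
`d = d₀/4`, `d' = d₀/2`, any rate `N ≥ d₀` of `EndTriv`, together with `Sol1`, `Sol2` and T1.
-/

set_option linter.unusedVariables false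
set_option linter.unusedSectionVars false

open scoped Manifold ContDiff ComplexConjugate Matrix ComplexOrder Topology
open MeasureTheory Set Filter

noncomputable section

namespace Vale.Agent.P267.H359

open FL XT XTData H692 H739

variable {M : Type} [TopologicalSpace M] [ChartedSpace C2 M] [IsManifold 𝓘(ℂ, C2) ω M]
  {D : XTData M}
variable {ι : Type} [Fintype ι] [DecidableEq ι]

/-- `Sol1` from `A1` (T1 of the trivial bundle) and T0 of the trivial bundle -/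
theorem sol1_of {i₀ : ι} {d : ℝ}
    (hA1 : ∀ w : M → Fin 2 → ℂ, W1 D d w → (∀ x, dbar1 0 w x = 0) →
      ∃ u : M → ℂ, W0 D d u ∧ ∀ x i, dbar0 0 u x i = w x i)
    (hT0 : ∃ C, 0 ≤ C ∧ D.T0 0 (LB.triv i₀ : LB M ι) (fun _ _ => 0) (ew (-d)) C) :
    ∃ K, 0 ≤ K ∧ Sol1 D d K := by
  obtain ⟨C, hC, hT0⟩ := hT0
  refine ⟨C * Real.exp |(-d)| * Real.exp |(-d)|, by positivity, fun w hw hcl B hB => ?_⟩
  obtain ⟨u, hu, hdu⟩ := hA1 w ⟨hw, B, hB⟩ hcl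
  refine ⟨u, hu.reg, hdu, fun x => ?_⟩
  have hB0 : 0 ≤ B := by
    have h1 := (n1_nonneg (h := D.h) w x).trans (hB x)
    by_contra hc
    push Not at hc
    have := mul_neg_of_neg_of_pos hc (Real.exp_pos (-d * D.f x))
    linarith
  have h2 : dbar0 0 u = w := by
    funext x i; exact hdu x i
  obtain ⟨A, hA⟩ := hu.bd
  exact t0s_of_T0 (D := D) hC hT0 u hu.reg ⟨A, hA⟩ B hB0 (fun y => by rw [h2]; exact hB y) x

/-- `Sol2` is T2 of the dual bundle -/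
theorem sol2_of {L : LB M ι} {a : M → Fin 2 → ℂ} {d : ℝ}
    (hT2 : ∃ C, 0 ≤ C ∧ D.T2 L.dual (fun x i => -a x i) (ew (-d)) C) :
    ∃ K, 0 ≤ K ∧ Sol2 D L a d K := by
  obtain ⟨C, hC, hT2⟩ := hT2
  refine ⟨C * Real.exp |(-d)| * Real.exp |(-d)|, by positivity, fun b hbs hb B hB => ?_⟩
  rcases isEmpty_or_nonempty M with hM | ⟨⟨x₀⟩⟩
  · exact ⟨fun _ _ => 0, fun x => isEmptyElim x, reg1.2 fun x => isEmptyElim x,
      fun x => isEmptyElim x, fun x => isEmptyElim x⟩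
  have hB0 : 0 ≤ B := by
    have h1 := (n2_nonneg D.herm b x₀).trans (hB x₀)
    by_contra hc
    push Not at hc
    have := mul_neg_of_neg_of_pos hc (Real.exp_pos (-d * D.f x₀))
    linarith
  obtain ⟨η, hη, hηs, hηb, hηp⟩ := hT2 b hb hbs (B * Real.exp |(-d)|) (by positivity) fun j =>
    H706.prof_le_ew D hB0 hB j
  refine ⟨η, hηs, hη, hηb, fun x => ?_⟩
  have := H706.le_of_prof_ew D (A := C * (B * Real.exp |(-d)|)) (H692.continuous_n1 D.herm hη)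
    (fun j => hηp j) x
  refine this.trans (le_of_eq ?_)
  rw [abs_of_nonneg (by positivity)]
  ring

/-- the complete output of block A for one bundle -/
structure XtFull (D : XTData M) (L : LB M ι) (a : M → Fin 2 → ℂ) (i₀ : ι) (R R' N : ℝ)
    (α : M → EuclideanSpace ℂ ι) (d d' : ℝ) : Prop where
  ends : D.EndTriv L i₀ a R N
  per : ∃ (m₀ : ℕ) (Lm : ℕ → LB M ι) (am : ℕ → M → Fin 2 → ℂ), D.PerSeq L i₀ a N m₀ Lm am
  cone : XtCone D L a i₀ R' α d d'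
  /-- the section is asymptotic to the standard section at the outer end -/
  out : ∃ A : ℝ, 0 ≤ A ∧ ∀ x, R' ≤ D.f x →
    ‖α x - EuclideanSpace.single i₀ 1‖ ≤ A * Real.exp (-d * D.f x)
  t1 : D.T1 L a (-d) 0
  t1' : D.T1 L.dual (fun x i => -a x i) (-d) 1
  t1O : D.T1 (LB.triv i₀ : LB M ι) (fun _ _ => 0) (-d) 0
  t1O' : ∀ δ : ℝ, 0 < δ → δ ≤ d' → D.T1 (LB.triv i₀ : LB M ι) (fun _ _ => 0) δ 0
  root : D.RootGap d'
  sol1 : ∃ K, 0 ≤ K ∧ Sol1 D d K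
  sol2 : ∃ K, 0 ≤ K ∧ Sol2 D L a d K

/-- **enriched form of `exists_xtCone`**: fixed weights, any rate `N ≥ d₀` -/
theorem exists_xtFull [T2Space M] [ConnectedSpace M] {d₀ : ℝ} (hroot : ∀ t, 0 < t → t ≤ d₀ → D.RootGap t) (hd₀ : 0 < d₀)
    (hT0K : D.T0KLeaf) (hT0E : D.T0ELeaf) (hT0O : D.T0OLeaf d₀) (hT2 : D.T2Leaf) (hEx : D.ExLeaf)
    (hT1 : D.T1Leaf) (L : LB M ι) (i₀ : ι) (R : ℝ)
    (hR : ∀ x, R ≤ |D.f x| → L.P x = Matrix.single i₀ i₀ 1) (hH1 : D.H1Leaf L i₀ R 0)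
    (hH1' : D.H1Leaf L.dual i₀ R 1) (hH1O : D.H1Leaf (LB.triv i₀ : LB M ι) i₀ R 0)
    (hAin : ∀ (a : M → Fin 2 → ℂ) (N : ℝ), 0 < N → D.EndTriv L i₀ a R N → D.AinLeaf L i₀ a)
    {N : ℝ} (hN : d₀ ≤ N) :
    ∃ (a : M → Fin 2 → ℂ) (α : M → EuclideanSpace ℂ ι) (R' : ℝ),
      XtFull D L a i₀ R R' N α (d₀ / 4) (d₀ / 2) := by
  have hN0 : 0 < N := lt_of_lt_of_le hd₀ hN
  obtain ⟨a, m₀, Lm, am, hE, hP⟩ := hEx ι L i₀ R hR N hN0
  have hd : 0 < d₀ / 4 := by linarith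
  have hP' := D.perSeq_triv i₀ d₀
  have hE' := D.endTriv_triv i₀ R d₀
  have h1 : D.T1 L a (-(d₀ / 4)) 0 := by
    refine t1_gen hT0K hT2 hT1 hN0 hE hP _ 0 ?_ hH1
    obtain ⟨m₁, C, hC, -, h⟩ := hT0E ι L i₀ a R N m₀ Lm am hN0 hE hP _ hd
    exact ⟨m₁, C, hC, h⟩
  have h2 : D.T1 L.dual (fun x i => -a x i) (-(d₀ / 4)) 1 := by
    refine t1_gen hT0K hT2 hT1 hN0 hE.dual hP.dual _ 1 ?_ hH1'
    obtain ⟨m₁, C, hC, -, h⟩ := hT0E ι L.dual i₀ _ R N m₀ _ _ hN0 hE.dual hP.dual _ hd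
    exact ⟨m₁, C, hC, h⟩
  obtain ⟨m₁, C₀, hC₀, hC₀', h3'⟩ := hT0E ι (LB.triv i₀) i₀ _ R d₀ 2 _ _ hd₀ hE' hP' _ hd
  have h3 : D.T1 (LB.triv i₀ : LB M ι) 0 (-(d₀ / 4)) 0 := by
    exact t1_gen hT0K hT2 hT1 hd₀ hE' hP' _ 0 ⟨m₁, C₀, hC₀, h3'⟩ hH1O
  have h4 : ∀ δ : ℝ, 0 < δ → δ ≤ d₀ / 2 → D.T1 (LB.triv i₀ : LB M ι) 0 δ 0 := by
    intro δ hδ hδ'
    refine t1_gen hT0K hT2 hT1 hd₀ hE' hP' _ 0 ?_ hH1O
    obtain ⟨C, hC, h⟩ := hT0O ι i₀ δ hδ (by linarith)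
    exact ⟨0, C, hC, fun m _ => h⟩
  have h5 : ∃ C, 0 ≤ C ∧ D.T2 L.dual (fun x i => -a x i) (ew (-(d₀ / 4))) C := by
    obtain ⟨m₁, C, hC, h⟩ := hT2 ι L.dual i₀ _ R N m₀ _ _ hN0 hE.dual hP.dual |-(d₀ / 4)|
    exact ⟨C, hC, (h _ (isWt_ew _)).1⟩
  have hroot' := hroot (d₀ / 2) (by linarith) (by linarith)
  obtain ⟨C₂, -, h5'⟩ := id h5
  obtain ⟨α, R', A, hA, h, hout⟩ := xtCone_out D hd (by linarith) (by linarith) hE
    hroot' (H181.hasFrames hE.hol) h1 h2 h3 h4 ⟨C₂, h5'⟩ (hAin a N hN0 hE)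
  exact ⟨a, α, R', hE, ⟨m₀, Lm, am, hP⟩, h, ⟨A, hA, hout⟩, h1, h2, h3, h4, hroot',
    sol1_of h.A1 ⟨C₀, hC₀, hC₀'⟩, sol2_of h5⟩

end Vale.Agent.P267.H359
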