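import Vale.Agent.P267.H359.VanK
import Vale.Agent.P267.H334.Van
import Vale.Agent.P267.H378.NFthm
import Vale.Agent.P267.H877.Leaves

/-!
# P267 / XA-T0 (helper359): the leaves `T0KLeaf`, `T0ELeaf`, `T0OLeaf`
-/

set_option linter.unusedVariables false
set_option linter.unusedSectionVars false

open scoped Manifold ContDiff ComplexConjugate Matrix ComplexOrder Topology
open MeasureTheory Set Filter

noncomputable section

namespace Vale.Agent.P267.H359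

open FL XT H413

variable {M : Type} [TopologicalSpace M] [T2Space M] [ChartedSpace C2 M]
  [IsManifold 𝓘(ℂ, C2) ω M] (D : XTData M)
variable {ι : Type} [Fintype ι] [DecidableEq ι]
variable {L : LB M ι} {i₀ : ι} {a : M → Fin 2 → ℂ} {R N : ℝ} {m₀ : ℕ}
  {Lm : ℕ → LB M ι} {am : ℕ → M → Fin 2 → ℂ}

theorem superVan (hE : D.EndTriv L i₀ a R N) (hN : 0 ≤ N) (κ : ℤ) : SuperVan D κ L a := by
  intro v hv hs hd hA
  obtain ⟨N', hN', h⟩ := H334.exists_van_rate hE hN κ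
  obtain ⟨A, hA⟩ := hA N'
  refine h (eg (-N')) (fun j => (eg_pos _ _).le) ⟨1, fun j => ?_⟩ v hv hs
    (fun x i => congrFun (hd x) i) ⟨A, hA⟩
  rw [one_mul, eg, neg_mul]

/-- `(K)`: one constant for `(L, a)` and its periodisations, all weights with logarithmic
increments bounded by `Λ` -/
theorem t0K (hK : D.NoFloquetK) (hN : 0 < N) (hE : D.EndTriv L i₀ a R N)
    (hP : D.PerSeq L i₀ a N m₀ Lm am) (Λ : ℝ) :
    ∃ (m₁ : ℕ) (C : ℝ), 0 ≤ C ∧ ∀ w, IsWt Λ w →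
      D.T0 1 L a w C ∧ D.T0c 1 L a w C ∧ ∀ m ≥ m₁, D.T0 1 (Lm m) (am m) w C ∧
        ∀ μ : ℂ, μ ≠ 0 → (∀ j : ℤ, w (j + m) = ‖μ‖ * w j) → D.T0m 1 (Lm m) (am m) m μ w C := by
  have hNF : D.NF := H378.nf D
  set Λ' : ℝ := max Λ 0
  have hΛ' : 0 ≤ Λ' := le_max_right _ _
  have e : ∀ j, eg 1 j * eg Λ' j = eg (1 + Λ') j := fun j => eg_mul 1 Λ' j
  have hV1 : D.Van 1 L a fun j => eg 1 j * eg Λ' j := by
    simp only [e]
    exact vanK D hNF hK hN hE (superVan D hE hN.le 1) (by linarith)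
  have hV2 : D.Van 1 (LB.triv i₀ : LB M ι) (fun _ => 0) fun j => eg 1 j * eg Λ' j := by
    simp only [e]
    exact van_triv_K D hNF hK i₀ (by linarith)
  obtain ⟨m₁, -, C, hC, h1, h2, h3⟩ := t0_uniform D hN hE hP hNF (κ := 1) (ρ := eg Λ') (δ := 1)
    one_pos (fun j => (eg_pos _ _).le)
    (fun k => ⟨eg (1 + Λ') k, fun j => by
      rw [e, e, mul_comm]
      exact eg_add_le (by linarith) j k⟩) hV1 hV2
  refine ⟨m₁, C, hC.le, fun w hw => ?_⟩
  have hw' : IsWt Λ' w := hw.mono (le_max_left _ _)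
  exact ⟨h1 w (wt_inv_of_isWt hΛ' hw'), h2 w (wt_of_isWt hΛ' hw'), fun m hm =>
    ⟨(h3 m hm).1 w (wt_inv_of_isWt hΛ' hw'), fun μ hμ hwm =>
      (h3 m hm).2.2 w (wt_of_isWt hΛ' hw') μ hμ hwm⟩⟩

/-- compact support version for the periodised bundles -/
theorem t0K_c (hK : D.NoFloquetK) (hN : 0 < N) (hE : D.EndTriv L i₀ a R N)
    (hP : D.PerSeq L i₀ a N m₀ Lm am) (Λ : ℝ) :
    ∃ (m₁ : ℕ) (C : ℝ), 0 ≤ C ∧ ∀ w, IsWt Λ w → ∀ m ≥ m₁, D.T0c 1 (Lm m) (am m) w C := by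
  have hNF : D.NF := H378.nf D
  set Λ' : ℝ := max Λ 0
  have hΛ' : 0 ≤ Λ' := le_max_right _ _
  have e : ∀ j, eg 1 j * eg Λ' j = eg (1 + Λ') j := fun j => eg_mul 1 Λ' j
  have hV1 : D.Van 1 L a fun j => eg 1 j * eg Λ' j := by
    simp only [e]
    exact vanK D hNF hK hN hE (superVan D hE hN.le 1) (by linarith)
  have hV2 : D.Van 1 (LB.triv i₀ : LB M ι) (fun _ => 0) fun j => eg 1 j * eg Λ' j := by
    simp only [e]
    exact van_triv_K D hNF hK i₀ (by linarith)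
  obtain ⟨m₁, -, C, hC, h1, h2, h3⟩ := t0_uniform D hN hE hP hNF (κ := 1) (ρ := eg Λ') (δ := 1)
    one_pos (fun j => (eg_pos _ _).le)
    (fun k => ⟨eg (1 + Λ') k, fun j => by
      rw [e, e, mul_comm]
      exact eg_add_le (by linarith) j k⟩) hV1 hV2
  exact ⟨m₁, C, hC.le, fun w hw m hm =>
    (h3 m hm).2.1 w (wt_of_isWt hΛ' (hw.mono (le_max_left _ _)))⟩

/-- XA-T0 for `K ⊗ L` -/
theorem t0KLeaf (hK : D.NoFloquetK) : D.T0KLeaf := fun ι _ _ L i₀ a R N m₀ Lm am hN hE hP Λ =>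
  t0K D hK hN hE hP Λ

theorem eg_ew_shift {ε δ : ℝ} (hε : 0 ≤ ε) (k : ℤ) :
    ∃ C, ∀ j, eg ε (j + k) * ew δ (j + k) ≤ C * (eg ε j * ew δ j) := by
  refine ⟨eg ε k * ew δ k, fun j => ?_⟩
  have h1 := eg_add_le hε j k
  have h2 : ew δ (j + k) = ew δ j * ew δ k := by
    simp only [ew]
    rw [← Real.exp_add]
    congr 1
    push_cast
    ring
  rw [h2]
  have h3 : 0 < ew δ j * ew δ k := mul_pos (Real.exp_pos _) (Real.exp_pos _)
  calc eg ε (j + k) * (ew δ j * ew δ k) ≤ (eg ε j * eg ε k) * (ew δ j * ew δ k) :=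
        mul_le_mul_of_nonneg_right h1 h3.le
    _ = _ := by ring

theorem van_out (hN : 0 < N) (hE : D.EndTriv L i₀ a R N) {d : ℝ} (hd : 0 < d) :
    D.Van 0 L a fun j => eg (d / 2) j * ew (-d) j := by
  refine H334.van_of_out hE hN (fun j => (mul_pos (eg_pos _ _) (Real.exp_pos _)).le)
    (δ := d / 2) (N' := 3 / 2 * d) (C := 1) (half_pos hd) (fun j hj => ?_) (fun j hj => ?_)
  · have hj' : (0 : ℝ) ≤ j := by exact_mod_cast hj
    rw [one_mul, eg, ew, ← Real.exp_add, abs_of_nonneg hj']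
    apply Real.exp_le_exp.2
    linarith
  · have hj' : (j : ℝ) ≤ 0 := by exact_mod_cast hj
    rw [one_mul, eg, ew, ← Real.exp_add, abs_of_nonpos hj']
    apply Real.exp_le_exp.2
    linarith

/-- `(E)` -/
theorem t0E (hN : 0 < N) (hE : D.EndTriv L i₀ a R N) (hP : D.PerSeq L i₀ a N m₀ Lm am) {d : ℝ}
    (hd : 0 < d) : ∃ (m₁ : ℕ) (C : ℝ), 0 ≤ C ∧
      D.T0 0 L a (ew (-d)) C ∧ ∀ m ≥ m₁, D.T0 0 (Lm m) (am m) (ew (-d)) C := by
  have hNF : D.NF := H378.nf D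
  obtain ⟨m₁, -, C, hC, h1, h2, h3⟩ := t0_uniform D hN hE hP hNF (κ := 0) (ρ := ew (-d))
    (δ := d / 2) (half_pos hd) (fun j => (Real.exp_pos _).le) (eg_ew_shift (half_pos hd).le)
    (van_out D hN hE hd) (van_out D hN (H334.endTriv_triv i₀ R N) hd)
  exact ⟨m₁, C, hC.le, h1 _ (wt_inv_ew (-d)), fun m hm => (h3 m hm).1 _ (wt_inv_ew (-d))⟩

/-- XA-T0 for `L`, weight `e^{-d f}` -/
theorem t0ELeaf : D.T0ELeaf := fun ι _ _ L i₀ a R N m₀ Lm am hN hE hP d hd =>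
  t0E D hN hE hP hd

/-- the trivial periodisation of the trivial bundle -/
theorem perSeq_triv (i₀ : ι) (N : ℝ) : D.PerSeq (LB.triv i₀ : LB M ι) i₀ (fun _ => 0) N 2
    (fun _ => LB.triv i₀) (fun _ _ => 0) where
  two_le := le_rfl
  hol _ _ := isHol_triv i₀
  perP _ _ _ := rfl
  pera _ _ _ := rfl
  close := ⟨0, fun m _ x _ => by
    have : n1 D.h 0 (fun y : M => (0 : Fin 2 → ℂ) - 0) x = 0 := n1_zero_at D (by simp)
    rw [this]
    simp⟩

theorem van_root {d' : ℝ} (hR : D.RootGap d') (i₀ : ι) {δ ε : ℝ} (hε : 0 < ε) (hεδ : ε < δ)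
    (hδ : δ + ε ≤ d') :
    D.Van 0 (LB.triv i₀ : LB M ι) (fun _ => 0) fun j => eg ε j * ew δ j := by
  rintro v hv hs hd ⟨A, hA⟩ x
  obtain ⟨h1, h2⟩ := triv_comp_hol hv (fun x => funext fun i => hd x i)
  have h3 := hR.out (fun x => v x i₀) (δ - ε) (by linarith) (by linarith) h1 h2
    ⟨|A| * Real.exp ε, fun y => by
      have e1 : ‖v y i₀‖ ≤ ‖v y‖ := PiLp.norm_apply_le (v y) i₀
      have e2 : n0 D.h 0 v y = ‖v y‖ := by simp [n0]
      have e3 : ‖v y‖ ≤ A * (eg ε ⌊D.f y⌋ * ew δ ⌊D.f y⌋) := by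
        rw [← e2]
        exact (D.le_prof (cont_n0 D hv) (D.mem_slab_floor y)).trans (hA _)
      have hfl := Int.floor_le (D.f y)
      have hfl2 := Int.lt_floor_add_one (D.f y)
      have e4 : eg ε ⌊D.f y⌋ * ew δ ⌊D.f y⌋ ≤
          Real.exp ε * Real.exp (max ((δ - ε) * D.f y) (d' * D.f y)) := by
        rw [eg, ew, ← Real.exp_add, ← Real.exp_add]
        apply Real.exp_le_exp.2
        have e5 : |((⌊D.f y⌋ : ℤ) : ℝ)| ≤ |D.f y| + 1 := by
          rw [abs_le]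
          constructor
          · linarith [neg_abs_le (D.f y)]
          · linarith [le_abs_self (D.f y)]
        have e6 : ε * |D.f y| + δ * D.f y ≤ max ((δ - ε) * D.f y) (d' * D.f y) := by
          rcases le_total 0 (D.f y) with h | h
          · rw [abs_of_nonneg h]
            refine le_trans ?_ (le_max_right _ _)
            nlinarith
          · rw [abs_of_nonpos h]
            refine le_trans (le_of_eq ?_) (le_max_left _ _)
            ring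
        nlinarith
      calc ‖v y i₀‖ ≤ A * (eg ε ⌊D.f y⌋ * ew δ ⌊D.f y⌋) := e1.trans e3
        _ ≤ |A| * (eg ε ⌊D.f y⌋ * ew δ ⌊D.f y⌋) :=
            mul_le_mul_of_nonneg_right (le_abs_self A)
              (mul_pos (eg_pos _ _) (Real.exp_pos _)).le
        _ ≤ |A| * (Real.exp ε * Real.exp (max ((δ - ε) * D.f y) (d' * D.f y))) :=
            mul_le_mul_of_nonneg_left e4 (abs_nonneg A)
        _ = _ := by ring⟩
  rw [sec_triv_apply hs x, h3 x]
  simp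

/-- XA-T0 for functions, weight `e^{δ f}` -/
theorem t0OLeaf {d' : ℝ} (hR : D.RootGap d') : D.T0OLeaf d' := by
  intro ι _ _ i₀ δ hδ hδ'
  have hNF : D.NF := H378.nf D
  set ε : ℝ := min δ (d' - δ) / 2 with hε
  have hε0 : 0 < ε := half_pos (lt_min hδ (by linarith))
  have hε1 : ε < δ := by
    have := min_le_left δ (d' - δ)
    linarith
  have hε2 : δ + ε ≤ d' := by
    have := min_le_right δ (d' - δ)
    linarith
  have hV : D.Van 0 (LB.triv i₀ : LB M ι) (fun _ => 0) fun j => eg ε j * ew δ j :=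
    van_root D hR i₀ hε0 hε1 hε2
  obtain ⟨m₁, -, C, hC, h1, -⟩ := t0_uniform D one_pos (H334.endTriv_triv (D := D) i₀ 0 1)
    (perSeq_triv D i₀ 1) hNF (κ := 0) (ρ := ew δ) (δ := ε) hε0 (fun j => (Real.exp_pos _).le)
    (eg_ew_shift hε0.le) hV hV
  exact ⟨C, hC.le, h1 _ (wt_inv_ew δ)⟩

end Vale.Agent.P267.H359
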