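import Vale.Agent.P267.H692.Cone2
import Vale.Agent.P267.H87.T1
import Vale.Agent.P267.H359.Basic

/-!
# P267 / ROUTE S of the endgame (helper359): the division step with constants, and functions near a
divisor

* `XtCone.near`: a function `u` of weight `-d` with `∂̄u = ⟨α, η⟩`, `η` of weight `-d`, is
  `c · cut + ⟨α, t⟩` with `t` of weight `-d`; `c` is the limit of `u` at the inner end.
* `XtCone.near_cut`: the same for `ψ · s`, `s` only defined near the support of the cut-off `ψ`.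
* `XtCone.div_step`: `∂̄g = ⟨α, b⟩` implies `g = ∂̄u - ⟨α, η⟩` with bounds.
-/

set_option linter.unusedVariables false
set_option linter.unusedSectionVars false

open scoped Manifold ContDiff ComplexConjugate Matrix ComplexOrder
open Set Filter Topology

noncomputable section

namespace Vale.Agent.P267.H692

open Vale.Agent.P267.FL Vale.Agent.P267.XT

variable {M : Type} [TopologicalSpace M] [ChartedSpace C2 M] [IsManifold 𝓘(ℂ, C2) ω M]
variable {ι : Type} [Fintype ι] [DecidableEq ι]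
variable {D : XTData M}
variable {L : LB M ι} {a : M → Fin 2 → ℂ} {i₀ : ι} {R : ℝ} {α : M → EuclideanSpace ℂ ι} {d d' : ℝ}

namespace XtCone

variable (H : XtCone D L a i₀ R α d d')
include H

/-- functions which are holomorphic modulo `α` are constant modulo `α` -/
theorem near {u : M → ℂ} {η : M → Fin 2 → EuclideanSpace ℂ ι} (hu : W0 D d u)
    (hηs : L.dual.Sec1 η) (hη : W1 D d η) (h : ∀ x i, dbar0 0 u x i = pair (α x) (η x i)) :
    ∃ (c : ℂ) (t : M → EuclideanSpace ℂ ι), L.dual.Sec t ∧ W0 D d t ∧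
      (∃ ε' > (0 : ℝ), ∃ C : ℝ, ∀ x, D.f x ≤ 0 → ‖u x - c‖ ≤ C * Real.exp (ε' * D.f x)) ∧
      ∀ x, u x = c * cut D R (R + 1) x + pair (α x) (t x) := by
  obtain ⟨c, ε', hε', C, hC⟩ := H.limit (g := fun _ _ => 0) hu hη (fun x i => by rw [h, zero_add])
    ⟨1, one_pos, 0, fun x _ => by
      rw [n1_eq D.herm]
      have : fr D.herm x (fun _ => (0 : ℂ)) = 0 := by ext k; simp [fr]
      rw [this, norm_zero]
      simp⟩
  obtain ⟨η₀, hη₀s, hη₀, hχ⟩ := H.dcut_pair
  have hRR : R < R + 1 := by linarith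
  have hχW := H.W0_cut R (R + 1) hRR
  have hW : W1 D d (fun x i => c • η₀ x i) := by
    refine ⟨reg1.2 fun x => S1.smul (S0.const c x) (reg1.1 hη₀.reg x), ?_⟩
    obtain ⟨C', hC'⟩ := hη₀.bd
    refine ⟨‖c‖ * C', fun x => ?_⟩
    rw [n1_smul D.herm (fun _ => c), mul_assoc]
    exact mul_le_mul_of_nonneg_left (hC' x) (norm_nonneg _)
  have h1 : W0 D d (fun x => u x - c * cut D R (R + 1) x) := hu.sub (hχW.const_smul c)
  have h2 : W1 D d (fun x i => η x i - c • η₀ x i) := hη.sub hW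
  have h3 : L.dual.Sec1 (fun x i => η x i - c • η₀ x i) := by
    intro x i
    show LB.act (L.dual.P x) (η x i - c • η₀ x i) = _
    rw [sub_eq_add_neg]
    exact act_add (hηs x i) (act_neg (act_smul (hη₀s x i) c))
  obtain ⟨t, hts, ht, hut⟩ := H.unique h1 h3 h2 (fun x i => by
    rw [dbar0_sub (reg0.1 hu.reg x) ((S0.const c x).mul (reg0.1 hχW.reg x)),
      dbar0_mul (S0.const c x) (reg0.1 hχW.reg x), dbar0_const, h, hχ, pair_sub_right,
      pair_smul_right]
    ring) (by
    have h4 : Tendsto u (comap D.f atBot) (𝓝 c) := tendsto_of_exp hε' ⟨C, hC⟩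
    have h5 : Tendsto (fun x => c * cut D R (R + 1) x) (comap D.f atBot) (𝓝 (c * 1)) := by
      refine Tendsto.const_mul c (tendsto_const_nhds.congr' ?_)
      filter_upwards [tendsto_comap.eventually (eventually_le_atBot R)] with x hx
      exact (cut_eq_one D hRR hx).symm
    have := h4.sub h5
    simpa using this)
  exact ⟨c, t, hts, ht, ⟨ε', hε', C, hC⟩, fun x => by rw [← hut x]; ring⟩

/-- the same for a function which is only defined near the support of a cut-off function `ψ`;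
`ψ` is locally constant off a set `K` on which `α` has no zero -/
theorem near_cut {U : Set M} (hU : IsOpen U) {ψ : M → ℂ} (hψ : Reg0 ∞ 0 ψ)
    (hψU : tsupport ψ ⊆ U) (hψb : ∃ C, ∀ x, ‖ψ x‖ ≤ C)
    (hψc : HasCompactSupport (dbar0 0 ψ)) (hψα : ∀ x ∈ tsupport (dbar0 0 ψ), α x ≠ 0)
    {s : M → ℂ} {η : M → Fin 2 → EuclideanSpace ℂ ι} (hs : ∀ x ∈ U, S0 s x)
    (hη : ∀ x ∈ U, S1 η x) (hηs : ∀ x ∈ U, ∀ i, LB.act (L.dual.P x) (η x i) = η x i)
    (hsb : ∃ C, ∀ x ∈ U, ‖s x‖ ≤ C * Real.exp (-d * D.f x))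
    (hηb : ∃ C, ∀ x ∈ U, n1 D.h 0 η x ≤ C * Real.exp (-d * D.f x))
    (h : ∀ x ∈ U, ∀ i, dbar0 0 s x i = pair (α x) (η x i)) :
    ∃ (c : ℂ) (t : M → EuclideanSpace ℂ ι), L.dual.Sec t ∧ W0 D d t ∧
      (∃ ε' > (0 : ℝ), ∃ C : ℝ, ∀ x, D.f x ≤ 0 → ‖ψ x * s x - c‖ ≤ C * Real.exp (ε' * D.f x)) ∧
      ∀ x, ψ x * s x = c * cut D R (R + 1) x + pair (α x) (t x) := by
  -- locality
  have hout : ∀ x, x ∉ U → ψ =ᶠ[𝓝 x] fun _ => 0 := fun x hx =>
    notMem_tsupport_iff_eventuallyEq.1 fun h' => hx (hψU h')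
  have hu0 : ∀ x, x ∉ U → (fun y => ψ y * s y) =ᶠ[𝓝 x] fun _ => 0 := fun x hx => by
    filter_upwards [hout x hx] with y hy
    rw [hy, zero_mul]
  have hn0 : ∀ x, x ∉ U → (fun y i => ψ y • η y i) =ᶠ[𝓝 x] fun _ _ => 0 := fun x hx => by
    filter_upwards [hout x hx] with y hy
    funext i
    rw [hy, zero_smul]
  have hdψ : Reg1 ∞ 0 (dbar0 0 ψ) := reg1.2 fun x => (reg0.1 hψ x).dbar
  have hdψ0 : ∀ x, α x = 0 → dbar0 0 ψ =ᶠ[𝓝 x] fun _ => 0 := fun x hx =>
    notMem_tsupport_iff_eventuallyEq.1 fun h' => hψα x h' hx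
  -- `θ = (∂̄ψ) α⁻¹`
  have hθreg : Reg1 ∞ 0 (fun x i => dbar0 0 ψ x i • ainv α x) := S1.ainv H.α_reg hdψ hdψ0
  have hθc : HasCompactSupport (fun x i => dbar0 0 ψ x i • ainv α x) := by
    refine hψc.mono' ?_
    intro x hx
    refine subset_tsupport _ fun h0 => hx ?_
    funext i
    show dbar0 0 ψ x i • ainv α x = 0
    rw [h0]
    exact zero_smul _ _
  -- `s θ`
  have hsθS : ∀ x, S1 (fun x i => s x • (dbar0 0 ψ x i • ainv α x)) x := by
    intro x
    by_cases hx : x ∈ U
    · exact S1.smul (hs x hx) (reg1.1 hθreg x)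
    · have hz : (fun y i => s y • (dbar0 0 ψ y i • ainv α y)) =ᶠ[𝓝 x] fun _ _ => 0 := by
        have h1 : dbar0 0 ψ =ᶠ[𝓝 x] fun _ _ => 0 := by
          filter_upwards [(hout x hx).eventuallyEq_nhds] with y hy
          funext i
          rw [dbar0_congr hy, dbar0_const]
        filter_upwards [h1] with y hy
        funext i
        rw [hy, zero_smul, smul_zero]
      exact (S1.zero x).congr hz.symm
  have hsθ : W1 D d (fun x i => s x • (dbar0 0 ψ x i • ainv α x)) := by
    refine W1.of_compact D (reg1.2 hsθS) ?_ d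
    refine hθc.mono' ?_
    intro x hx
    refine subset_tsupport _ fun h0 => hx ?_
    funext i
    have := congrFun h0 i
    simp only [Pi.zero_apply] at this
    simp only [this, smul_zero, Pi.zero_apply]
  -- the two pieces
  obtain ⟨Cψ, hCψ⟩ := hψb
  have hexp : ∀ x, 0 < Real.exp (-d * D.f x) := fun x => Real.exp_pos _
  have hψη : W1 D d (fun x i => ψ x • η x i) := by
    refine ⟨reg1.2 fun x => ?_, ?_⟩
    · by_cases hx : x ∈ U
      · exact S1.smul (reg0.1 hψ x) (hη x hx)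
      · exact (S1.zero x).congr (hn0 x hx).symm
    · obtain ⟨C, hC⟩ := hηb
      refine ⟨|Cψ| * |C|, fun x => ?_⟩
      rw [n1_smul D.herm]
      by_cases hx : x ∈ U
      · rw [mul_assoc]
        refine mul_le_mul ((hCψ x).trans (le_abs_self _)) ?_ (n1_nonneg _ _) (abs_nonneg _)
        exact (hC x hx).trans (mul_le_mul_of_nonneg_right (le_abs_self _) (hexp x).le)
      · rw [(hout x hx).self_of_nhds, norm_zero, zero_mul]
        have := hexp x
        positivity
  have hψs : W0 D d (fun x => ψ x * s x) := by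
    refine ⟨reg0.2 fun x => ?_, ?_⟩
    · by_cases hx : x ∈ U
      · exact S0.mul (reg0.1 hψ x) (hs x hx)
      · exact (S0.const 0 x).congr (hu0 x hx).symm
    · obtain ⟨C, hC⟩ := hsb
      refine ⟨|Cψ| * |C|, fun x => ?_⟩
      rw [norm_mul]
      by_cases hx : x ∈ U
      · rw [mul_assoc]
        refine mul_le_mul ((hCψ x).trans (le_abs_self _)) ?_ (norm_nonneg _) (abs_nonneg _)
        exact (hC x hx).trans (mul_le_mul_of_nonneg_right (le_abs_self _) (hexp x).le)
      · rw [(hout x hx).self_of_nhds, norm_zero, zero_mul]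
        have := hexp x
        positivity
  refine H.near hψs (η := fun x i => ψ x • η x i + s x • (dbar0 0 ψ x i • ainv α x)) ?_
    (hψη.add hsθ) fun x i => ?_
  · intro x i
    refine act_add ?_ (act_smul (act_smul_ainv H.α_sec x _) _)
    by_cases hx : x ∈ U
    · exact act_smul (hηs x hx i) _
    · rw [(hout x hx).self_of_nhds, zero_smul]
      simp [act_eq_clm]
  · have hp : pair (α x) (dbar0 0 ψ x i • ainv α x) = dbar0 0 ψ x i := by
      refine pair_smul_ainv fun hx => ?_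
      rw [(hdψ0 x hx).self_of_nhds]
      rfl
    rw [pair_add_right, pair_smul_right, pair_smul_right, hp]
    by_cases hx : x ∈ U
    · rw [dbar0_mul (reg0.1 hψ x) (hs x hx), h x hx]
      ring
    · rw [dbar0_congr (hu0 x hx), dbar0_const, (hout x hx).self_of_nhds]
      have h1 : dbar0 0 ψ x i = 0 := by rw [dbar0_congr (hout x hx), dbar0_const]
      rw [h1]
      ring

end XtCone

end Vale.Agent.P267.H692
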