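import Vale.Agent.P267.H359.PerFam
import Vale.Agent.P267.H399.Calc3

/-!
# P267 / XA-T0 (helper359): uniform degree 0 estimates for a periodised bundle, in the form of the
interface file
-/

set_option linter.unusedVariables false
set_option linter.unusedSectionVars false

open scoped Manifold ContDiff ComplexConjugate Matrix ComplexOrder Topology
open MeasureTheory Set Filter

noncomputable section

namespace Vale.Agent.P267.H359

open FL XT H413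

variable {M : Type} [TopologicalSpace M] [ChartedSpace C2 M] [IsManifold 𝓘(ℂ, C2) ω M]
  (D : XTData M)
variable {V : Type*} [NormedAddCommGroup V] [InnerProductSpace ℂ V]
variable {ι : Type} [Fintype ι] [DecidableEq ι]
variable {L : LB M ι} {i₀ : ι} {a : M → Fin 2 → ℂ} {R N : ℝ} {m₀ : ℕ}
  {Lm : ℕ → LB M ι} {am : ℕ → M → Fin 2 → ℂ}

/-! ### compact supports -/

theorem continuous_f : Continuous D.f := by
  have h : Continuous fun x => (D.f x : ℂ) := D.f_smooth.continuous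
  exact (Complex.continuous_re.comp h).congr fun x => by simp

theorem db0_eq_zero_of_eventually {κ : ℤ} {u : M → EuclideanSpace ℂ ι} {x : M}
    (h : ∀ᶠ y in 𝓝 x, u y = 0) : L.db0 a κ u x = 0 := by
  funext i
  have h1 : dbar0 κ u x = dbar0 κ (fun _ => (0 : EuclideanSpace ℂ ι)) x := FL.dbar0_congr h
  have h2 : u x = 0 := h.self_of_nhds
  simp [LB.db0, h1, h2, act_zero]

theorem exists_supp_bound {u : M → V} (hu : HasCompactSupport u) :
    ∃ J : ℕ, ∀ j : ℤ, (J : ℤ) < |j| → ∀ x ∈ D.slab j, ∀ᶠ y in 𝓝 x, u y = 0 := by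
  obtain ⟨B, hB⟩ := hu.isCompact.exists_bound_of_continuousOn (continuous_f D).continuousOn
  obtain ⟨J, hJ⟩ := exists_nat_ge (B + 1)
  refine ⟨J, fun j hj x hx => ?_⟩
  have hx' : x ∉ tsupport u := by
    intro hx2
    have h1 := hB x hx2
    rw [Real.norm_eq_abs] at h1
    have h2 : (J : ℝ) < |(j : ℝ)| := by exact_mod_cast hj
    have h3 : |(j : ℝ)| ≤ |D.f x| + 1 := by
      obtain ⟨h4, h5⟩ := hx
      rw [abs_le]
      constructor
      · linarith [neg_abs_le (D.f x)]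
      · linarith [le_abs_self (D.f x)]
    linarith
  have := (isClosed_tsupport u).isOpen_compl.mem_nhds hx'
  filter_upwards [this] with y hy
  exact image_eq_zero_of_notMem_tsupport hy

theorem summable_of_support {g : ℤ → ℝ} {J : ℕ} (h : ∀ j : ℤ, (J : ℤ) < |j| → g j = 0) :
    Summable g := by
  refine summable_of_ne_finset_zero (s := Finset.Icc (-(J : ℤ)) J) fun j hj => h j ?_
  by_contra hcon
  push Not at hcon
  rw [abs_le] at hcon
  exact hj (Finset.mem_Icc.2 hcon)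

theorem prof_eq_zero {n : M → ℝ} (hn0 : ∀ x, 0 ≤ n x) {j : ℤ} (h : ∀ x ∈ D.slab j, n x = 0) :
    D.prof n j = 0 :=
  le_antisymm (D.prof_le le_rfl fun x hx => (h x hx).le) (D.prof_nonneg hn0 j)

theorem n0_zero_at {κ : ℤ} {u : M → V} {x : M} (h : u x = 0) : n0 D.h κ u x = 0 := by
  simp [n0, h]

theorem n1_zero_at {κ : ℤ} {u : M → Fin 2 → V} {x : M} (h : u x = 0) : n1 D.h κ u x = 0 := by
  simp [n1, nsq1, h]

theorem t0c_of_est0 {κ : ℤ} {ρ : ℤ → ℝ} {B : Set (BH M ι)} {C : ℝ} (hE : Est0 D κ ρ B C)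
    {b : BH M ι} (hb : b ∈ B) {w : ℤ → ℝ} (hw : Wt ρ w) : D.T0c κ b.1 b.2 w C := by
  intro u hu hs hc
  obtain ⟨J, hJ⟩ := exists_supp_bound D hc
  refine hE.l1 b hb w hw u hu hs ?_ ?_
  · refine summable_of_support (J := J) fun j hj => ?_
    rw [XTData.p0, prof_eq_zero D (n0_nonneg D κ u) fun x hx =>
      n0_zero_at D (hJ j hj x hx).self_of_nhds, mul_zero]
  · refine summable_of_support (J := J) fun j hj => ?_
    rw [XTData.p1, prof_eq_zero D (n1_nonneg D κ _) fun x hx =>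
      n1_zero_at D (db0_eq_zero_of_eventually (hJ j hj x hx)), mul_zero]

theorem t0_of_est0 {κ : ℤ} {ρ : ℤ → ℝ} {B : Set (BH M ι)} {C : ℝ} (hE : Est0 D κ ρ B C)
    {b : BH M ι} (hb : b ∈ B) {w : ℤ → ℝ} (hw : Wt ρ fun j => (w j)⁻¹) :
    D.T0 κ b.1 b.2 w C := by
  intro u hu hs hA K hK j
  have hw0 : ∀ j, 0 < w j := fun j => inv_pos.1 (hw.1 j)
  obtain ⟨A, hA⟩ := hA
  have := hE.sup b hb (fun j => (w j)⁻¹) hw u hu hs ⟨A, fun j => by
    rw [inv_mul_le_iff₀ (hw0 j), mul_comm]; exact hA j⟩ K (fun j => by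
    rw [inv_mul_le_iff₀ (hw0 j), mul_comm]; exact hK j) j
  rw [inv_mul_le_iff₀ (hw0 j)] at this
  linarith

/-! ### quasi-periodic sections -/

theorem p0_equiv {κ : ℤ} {u : M → V} {m : ℤ} {μ : ℂ} (hμ : μ ≠ 0) (hu : D.Equiv m μ u) (j : ℤ) :
    D.p0 κ u (j + m) = ‖μ‖ * D.p0 κ u j := by
  rw [← p0_smul D κ hμ, XTData.p0, XTData.p0, ← D.prof_comp_sh]
  congr 1
  funext x
  rw [← D.n0_comp_sh]
  exact n0_congr (hu x)

theorem p1_equiv {κ : ℤ} {u : M → Fin 2 → V} {m : ℤ} {μ : ℂ} (hμ : μ ≠ 0) (hu : D.Equiv m μ u)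
    (j : ℤ) : D.p1 κ u (j + m) = ‖μ‖ * D.p1 κ u j := by
  rw [← p1_smul D κ hμ, XTData.p1, XTData.p1, ← D.prof_comp_sh]
  congr 1
  funext x
  rw [← D.n1_comp_sh]
  exact n1_congr (hu x)

theorem equiv_db0 {κ : ℤ} {u : M → EuclideanSpace ℂ ι} {m : ℤ} {μ : ℂ} (hr : Reg0 ∞ κ u)
    (hu : D.Equiv m μ u) (hL : ∀ x, L.P (D.sh m x) = L.P x) (ha : ∀ x, a (D.sh m x) = a x) :
    D.Equiv m μ (L.db0 a κ u) := by
  intro x
  have h1 := (D.chartMap_sh m).lb_db0 L a κ u x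
  have h2 : (D.chartMap_sh m).lb L = L := lb_ext (funext hL)
  have h3 : (fun z => a (D.sh m z)) = a := funext ha
  have h4 : (fun z => u (D.sh m z)) = fun z => μ • u z := funext hu
  rw [h2, h3, h4] at h1
  rw [← h1]
  exact db0_const_smul hr μ x

theorem t0m_of_est0 {κ : ℤ} {ρ : ℤ → ℝ} {B : Set (BH M ι)} {C : ℝ} (hE : Est0 D κ ρ B C)
    {b : BH M ι} (hb : b ∈ B) {w : ℤ → ℝ} (hw : Wt ρ w) {m : ℕ} (hm : 0 < m) {μ : ℂ} (hμ : μ ≠ 0)
    (hwm : ∀ j, w (j + m) = ‖μ‖ * w j) (hL : ∀ x, b.1.P (D.sh m x) = b.1.P x)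
    (ha : ∀ x, b.2 (D.sh m x) = b.2 x) : D.T0m κ b.1 b.2 m μ w C := by
  intro u hu hs hq
  have hμ' : μ⁻¹ ≠ 0 := inv_ne_zero hμ
  have hn : ‖μ‖ ≠ 0 := norm_ne_zero_iff.2 hμ
  refine hE.per b hb w hw u hu hs m hm (fun j => ?_) fun j => ?_
  · rw [hwm, p0_equiv D hμ' hq, norm_inv]
    field_simp
  · rw [hwm, p1_equiv D hμ' (equiv_db0 D hu hq hL ha), norm_inv]
    field_simp

/-! ### vanishing for translates -/

theorem van_translate {κ : ℤ} {ρ : ℤ → ℝ} (hρ0 : ∀ j, 0 ≤ ρ j)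
    (hρ : ∀ k : ℤ, ∃ C, ∀ j, ρ (j + k) ≤ C * ρ j)
    (h : D.Van κ L a ρ) (k : ℤ) : D.Van κ (D.shL k L) (fun x => a (D.sh k x)) ρ := by
  rintro v hv hs hd ⟨A, hA⟩ x
  have hL : D.shL (-k) (D.shL k L) = L := by
    refine lb_ext ?_
    funext x
    simp only [XTData.shL_P, D.sh_sh_neg]
  have ha : (fun x => (fun x => a (D.sh k x)) (D.sh (-k) x)) = a := by
    funext x
    simp only [D.sh_sh_neg]
  have h1 : ∀ y, v (D.sh (-k) y) = 0 := by
    refine h (fun y => v (D.sh (-k) y)) ((D.chartMap_sh (-k)).reg0_comp hv) ?_ ?_ ?_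
    · have := (D.chartMap_sh (-k)).lb_sec hs
      intro y
      have h2 := this y
      rwa [show (D.chartMap_sh (-k)).lb (D.shL k L) = L from hL] at h2
    · intro y i
      have h2 := (D.chartMap_sh (-k)).lb_db0 (D.shL k L) (fun x => a (D.sh k x)) κ v y
      rw [show (D.chartMap_sh (-k)).lb (D.shL k L) = L from hL] at h2
      rw [show (fun z => (fun x => a (D.sh k x)) (D.sh (-k) z)) = a from ha] at h2
      rw [h2]
      exact hd _ i
    · obtain ⟨C, hC⟩ := hρ (-k)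
      refine ⟨|A| * C, fun j => ?_⟩
      have e : D.p0 κ (fun y => v (D.sh (-k) y)) j = D.p0 κ v (j + -k) := by
        rw [XTData.p0, XTData.p0, ← D.prof_comp_sh]
        congr 1
        funext x
        exact D.n0_comp_sh κ (-k) v x
      rw [e]
      calc D.p0 κ v (j + -k) ≤ A * ρ (j + -k) := hA _
        _ ≤ |A| * ρ (j + -k) := mul_le_mul_of_nonneg_right (le_abs_self A) (hρ0 _)
        _ ≤ |A| * (C * ρ j) := mul_le_mul_of_nonneg_left (hC j) (abs_nonneg A)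
        _ = _ := by ring
  have := h1 (D.sh k x)
  rwa [D.sh_neg_sh] at this

/-- **T0, uniform**: `(L, a)` and its periodisations. -/
theorem t0_uniform (hN : 0 < N) (hE : D.EndTriv L i₀ a R N) (hP : D.PerSeq L i₀ a N m₀ Lm am)
    (hNF : D.NF) {κ : ℤ} {ρ : ℤ → ℝ} {δ : ℝ} (hδ : 0 < δ) (hρ0 : ∀ j, 0 ≤ ρ j)
    (hρ : ∀ k : ℤ, ∃ C, ∀ j, eg δ (j + k) * ρ (j + k) ≤ C * (eg δ j * ρ j))
    (hV1 : D.Van κ L a fun j => eg δ j * ρ j)
    (hV2 : D.Van κ (LB.triv i₀ : LB M ι) (fun _ => 0) fun j => eg δ j * ρ j) :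
    ∃ m₁ : ℕ, m₀ ≤ m₁ ∧ ∃ C : ℝ, 0 < C ∧
      (∀ w : ℤ → ℝ, Wt ρ (fun j => (w j)⁻¹) → D.T0 κ L a w C) ∧
      (∀ w : ℤ → ℝ, Wt ρ w → D.T0c κ L a w C) ∧
      ∀ m : ℕ, m₁ ≤ m →
        (∀ w : ℤ → ℝ, Wt ρ (fun j => (w j)⁻¹) → D.T0 κ (Lm m) (am m) w C) ∧
        (∀ w : ℤ → ℝ, Wt ρ w → D.T0c κ (Lm m) (am m) w C) ∧
        ∀ w : ℤ → ℝ, Wt ρ w → ∀ μ : ℂ, μ ≠ 0 → (∀ j, w (j + m) = ‖μ‖ * w j) →
          D.T0m κ (Lm m) (am m) m μ w C := by
  have hV : ∀ q ∈ PLim D L a i₀, D.Van κ q.1 q.2 (fun j => eg δ j * ρ j) := by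
    rintro q (⟨k, rfl⟩ | rfl)
    · exact van_translate D (fun j => mul_nonneg (eg_pos δ j).le (hρ0 j)) hρ hV1 k
    · exact hV2
  obtain ⟨n, C, hC⟩ := exists_est0 D hδ (bFam D hN hE hP) hNF hV
  have hb0 : ((L, a) : BH M ι) ∈ PB D L a m₀ Lm am n := by
    refine ⟨0, Or.inl (Prod.ext (lb_ext ?_) ?_)⟩
    · funext x; simp
    · funext x; simp
  have hbm : ∀ m : ℕ, max m₀ n ≤ m → ((Lm m, am m) : BH M ι) ∈ PB D L a m₀ Lm am n := by
    intro m hm
    refine ⟨0, Or.inr ⟨m, (le_max_left _ _).trans hm, (le_max_right _ _).trans hm,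
      Prod.ext (lb_ext ?_) ?_⟩⟩
    · funext x; simp
    · funext x; simp
  refine ⟨max m₀ n, le_max_left _ _, C, hC.pos, fun w hw => t0_of_est0 D hC hb0 hw,
    fun w hw => t0c_of_est0 D hC hb0 hw, fun m hm => ⟨fun w hw => t0_of_est0 D hC (hbm m hm) hw,
    fun w hw => t0c_of_est0 D hC (hbm m hm) hw, fun w hw μ hμ hwm => ?_⟩⟩
  have hm0 : m₀ ≤ m := (le_max_left _ _).trans hm
  refine t0m_of_est0 D hC (hbm m hm) hw (lt_of_lt_of_le (by have := hP.two_le; omega) hm0) hμ hwm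
    (fun x => ?_) (fun x => hP.pera m hm0 x)
  have := periodic_P D hP hm0 1 x
  simpa using this

/-! ### weights -/

theorem IsWt.le_eg {Λ : ℝ} (hΛ : 0 ≤ Λ) {w : ℤ → ℝ} (hw : IsWt Λ w) (c j : ℤ) :
    w c ≤ eg Λ j * w (c + j) := by
  revert j
  have key : ∀ n : ℕ, w c ≤ Real.exp (Λ * n) * w (c + n) ∧ w c ≤ Real.exp (Λ * n) * w (c - n) := by
    intro n
    induction n with
    | zero => simp
    | succ n ih =>
      have e : Real.exp (Λ * ((n + 1 : ℕ) : ℝ)) = Real.exp (Λ * n) * Real.exp Λ := by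
        rw [← Real.exp_add]; congr 1; push_cast; ring
      constructor
      · refine ih.1.trans ?_
        rw [e, mul_assoc]
        refine mul_le_mul_of_nonneg_left ?_ (Real.exp_pos _).le
        have := hw.down (c + n)
        rwa [show c + ((n + 1 : ℕ) : ℤ) = c + n + 1 by push_cast; ring]
      · refine ih.2.trans ?_
        rw [e, mul_assoc]
        refine mul_le_mul_of_nonneg_left ?_ (Real.exp_pos _).le
        have := hw.up (c - ((n + 1 : ℕ) : ℤ))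
        rwa [show c - ((n + 1 : ℕ) : ℤ) + 1 = c - n by push_cast; ring] at this
  intro j
  rcases le_total 0 j with hj | hj
  · obtain ⟨n, rfl⟩ := Int.eq_ofNat_of_zero_le hj
    have := (key n).1
    simpa [eg] using this
  · obtain ⟨n, hn⟩ := Int.eq_ofNat_of_zero_le (neg_nonneg.2 hj)
    have h1 : j = -(n : ℤ) := by omega
    subst h1
    have := (key n).2
    simpa [eg, sub_eq_add_neg] using this

theorem wt_of_isWt {Λ : ℝ} (hΛ : 0 ≤ Λ) {w : ℤ → ℝ} (hw : IsWt Λ w) : Wt (eg Λ) w :=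
  ⟨hw.pos, fun c j => IsWt.le_eg hΛ hw c j⟩

theorem IsWt.inv {Λ : ℝ} {w : ℤ → ℝ} (hw : IsWt Λ w) : IsWt Λ fun j => (w j)⁻¹ where
  pos j := inv_pos.2 (hw.pos j)
  up j := by
    rw [← div_eq_mul_inv, le_div_iff₀ (hw.pos j), ← div_eq_inv_mul, div_le_iff₀ (hw.pos _)]
    exact hw.down j
  down j := by
    rw [← div_eq_mul_inv, le_div_iff₀ (hw.pos _), ← div_eq_inv_mul, div_le_iff₀ (hw.pos _)]
    exact hw.up j

theorem wt_inv_of_isWt {Λ : ℝ} (hΛ : 0 ≤ Λ) {w : ℤ → ℝ} (hw : IsWt Λ w) :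
    Wt (eg Λ) fun j => (w j)⁻¹ := wt_of_isWt hΛ (IsWt.inv hw)

theorem wt_inv_ew (δ : ℝ) : Wt (ew δ) fun j => (ew δ j)⁻¹ := by
  refine ⟨fun j => inv_pos.2 (Real.exp_pos _), fun c j => le_of_eq ?_⟩
  simp only [ew]
  rw [← Real.exp_neg, ← Real.exp_neg, ← Real.exp_add]
  congr 1
  push_cast
  ring

end Vale.Agent.P267.H359
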