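import Vale.Agent.P267.H359.Unif
import Vale.Agent.P267.H413.Vanish

/-!
# P267 / XA-T0 (helper359): holomorphic sections of `K ⊗ (L, a)` of exponential growth vanish
-/

set_option linter.unusedVariables false
set_option linter.unusedSectionVars false

open scoped Manifold ContDiff ComplexConjugate Matrix ComplexOrder Topology
open MeasureTheory Set Filter

noncomputable section

namespace Vale.Agent.P267.H359

open FL XT H413

variable {M : Type} [TopologicalSpace M] [ChartedSpace C2 M] [IsManifold 𝓘(ℂ, C2) ω M]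
  (D : XTData M)
variable {V : Type*} [NormedAddCommGroup V] [InnerProductSpace ℂ V]
variable {ι : Type} [Fintype ι] [DecidableEq ι]
variable {L : LB M ι} {i₀ : ι} {a : M → Fin 2 → ℂ} {R N : ℝ}

theorem one_le_infty : (1 : WithTop ℕ∞) ≤ ∞ := by norm_num

theorem db0_add' {κ : ℤ} {s t : M → EuclideanSpace ℂ ι} (hs : Reg0 ∞ κ s) (ht : Reg0 ∞ κ t)
    (x : M) : L.db0 a κ (fun y => s y + t y) x = L.db0 a κ s x + L.db0 a κ t x := by
  funext i
  have h1 : dbar0 κ (fun y => s y + t y) x = dbar0 κ s x + dbar0 κ t x :=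
    FL.dbar0_add ((hs.at x).of_le one_le_infty) ((ht.at x).of_le one_le_infty)
  simp only [LB.db0, h1, Pi.add_apply, act_add, smul_add]
  abel

theorem reg0_add' {κ : ℤ} {s t : M → V} (hs : Reg0 ∞ κ s) (ht : Reg0 ∞ κ t) :
    Reg0 ∞ κ fun y => s y + t y := reg0_iff_at.2 fun x => (hs.at x).add (ht.at x)

theorem reg0_zero' {κ : ℤ} : Reg0 ∞ κ (fun _ : M => (0 : V)) := reg0_iff_at.2 fun x => at0_zero

theorem db0_zero' (κ : ℤ) (x : M) : L.db0 a κ (fun _ => 0) x = 0 := by
  funext i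
  simp [LB.db0, act_zero]

variable (L a) in
/-- holomorphic sections of `K^κ ⊗ (L, a)` -/
def HolSec (κ : ℤ) : Submodule ℂ (M → EuclideanSpace ℂ ι) where
  carrier := {s | Reg0 ∞ κ s ∧ L.Sec s ∧ ∀ x, L.db0 a κ s x = 0}
  add_mem' := by
    rintro s t ⟨h1, h2, h3⟩ ⟨k1, k2, k3⟩
    refine ⟨reg0_add' h1 k1, fun x => ?_, fun x => ?_⟩
    · have e1 := h2 x
      have e2 := k2 x
      simp only [Pi.add_apply, act_add, e1, e2]
    · have := db0_add' (L := L) (a := a) h1 k1 x
      rw [h3, k3, add_zero] at this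
      exact this
  zero_mem' := ⟨reg0_zero', fun x => act_zero _, fun x => db0_zero' κ x⟩
  smul_mem' := by
    rintro c s ⟨h1, h2, h3⟩
    refine ⟨reg0_const_smul h1 c, fun x => ?_, fun x => ?_⟩
    · have e1 := h2 x
      simp only [Pi.smul_apply, act_smul, e1]
    · have := db0_const_smul (L := L) (a := a) h1 c x
      rw [h3, smul_zero] at this
      exact this

/-- the slab norms as seminorms -/
def alpha (κ : ℤ) (L : LB M ι) (a : M → Fin 2 → ℂ) (j : ℤ) : Seminorm ℂ (HolSec L a κ) :=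
  Seminorm.of (fun s => D.p0 κ (s : M → EuclideanSpace ℂ ι) j)
    (by
      intro s t
      refine D.prof_le (add_nonneg (D.prof_nonneg (n0_nonneg D κ _) j)
        (D.prof_nonneg (n0_nonneg D κ _) j)) fun x hx => ?_
      refine (n0_add_le D κ (s : M → EuclideanSpace ℂ ι) t x).trans (add_le_add ?_ ?_)
      · exact D.le_prof (cont_n0 D s.2.1) hx
      · exact D.le_prof (cont_n0 D t.2.1) hx)
    (by
      intro c s
      rcases eq_or_ne c 0 with rfl | hc
      · rw [norm_zero, zero_mul, zero_smul]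
        exact prof_eq_zero D (n0_nonneg D κ _) fun x hx => n0_zero_at D rfl
      · exact p0_smul D κ hc (s : M → EuclideanSpace ℂ ι) j)

theorem alpha_apply (κ : ℤ) (j : ℤ) (s : HolSec L a κ) :
    alpha D κ L a j s = D.p0 κ (s : M → EuclideanSpace ℂ ι) j := rfl

theorem eq_zero_of_n0 {κ : ℤ} {s : M → V} {x : M} (h : n0 D.h κ s x ≤ 0) : s x = 0 := by
  have h1 : 0 < dh D.h x ^ (-(κ : ℝ) / 2) := Real.rpow_pos_of_pos (dh_pos D x) _
  rw [n0] at h
  have h2 : ‖s x‖ ≤ 0 := by
    by_contra hcon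
    push Not at hcon
    have := mul_pos hcon h1
    linarith
  exact norm_le_zero_iff.1 h2

theorem alpha_sep (κ : ℤ) (s : HolSec L a κ) (h : ∀ j, alpha D κ L a j s = 0) : s = 0 := by
  refine Subtype.ext (funext fun x => ?_)
  have h1 := h ⌊D.f x⌋
  rw [alpha_apply] at h1
  exact eq_zero_of_n0 D ((D.le_prof (cont_n0 D s.2.1) (D.mem_slab_floor x)).trans h1.le)

theorem alpha_montel (hNF : D.NF) (hL : L.IsHol a) (κ : ℤ) (v : ℕ → HolSec L a κ)
    (hv : ∀ j, ∃ C, ∀ n, alpha D κ L a j (v n) ≤ C) :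
    ∃ w, ∃ φ : ℕ → ℕ, StrictMono φ ∧
      ∀ j, Tendsto (fun n => alpha D κ L a j (v (φ n) - w)) atTop (𝓝 0) := by
  have hconv := locConv_const D ((L, a) : BH M ι)
  obtain ⟨φ, hφ, w, hw1, hw2, hw3, hw4⟩ := hNF ι κ L a (fun _ => L) (fun _ => a) (fun _ => 0)
    (fun n => (v n : M → EuclideanSpace ℂ ι)) hL (fun _ => hL) hconv.1 hconv.2 reg1_zero
    (fun x i => by simp [act_zero]) (fun x => db1_zero κ _ _ x) (fun n => (v n).2.1)
    (fun n => (v n).2.2.1) hv
    (fun j => by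
      have e : ∀ n, D.p1 κ (fun x => L.db0 a κ (v n : M → EuclideanSpace ℂ ι) x - 0) j = 0 := by
        intro n
        refine prof_eq_zero D (n1_nonneg D κ _) fun x hx => n1_zero_at D ?_
        simp only [(v n).2.2.2 x, sub_zero]
      simp only [e]
      exact tendsto_const_nhds)
  exact ⟨⟨w, hw1, hw2, fun x => funext fun i => hw3 x i⟩, φ, hφ, hw4⟩

/-! ### the trivial bundle -/

theorem lb_triv {g : M → M} (hg : ChartMap g) : hg.lb (LB.triv i₀ : LB M ι) = LB.triv i₀ :=
  lb_ext rfl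

/-- translation on the space of holomorphic sections of `K^κ` -/
def shSec (κ : ℤ) (i₀ : ι) (k : ℤ) :
    HolSec (LB.triv i₀ : LB M ι) (fun _ => 0) κ →ₗ[ℂ] HolSec (LB.triv i₀ : LB M ι) (fun _ => 0) κ
    where
  toFun s := ⟨fun x => (s : M → EuclideanSpace ℂ ι) (D.sh k x),
    (D.chartMap_sh k).reg0_comp s.2.1,
    by
      have := (D.chartMap_sh k).lb_sec s.2.2.1
      rwa [lb_triv] at this,
    fun x => by
      have := (D.chartMap_sh k).lb_db0 (LB.triv i₀ : LB M ι) (fun _ => 0) κ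
        (s : M → EuclideanSpace ℂ ι) x
      rw [lb_triv, s.2.2.2] at this
      exact this⟩
  map_add' _ _ := rfl
  map_smul' _ _ := rfl

def shSecE (κ : ℤ) (i₀ : ι) :
    HolSec (LB.triv i₀ : LB M ι) (fun _ => 0) κ ≃ₗ[ℂ] HolSec (LB.triv i₀ : LB M ι) (fun _ => 0) κ :=
  LinearEquiv.ofLinearMap (shSec D κ i₀ 1) (shSec D κ i₀ (-1))
    (by
      ext s x : 3
      change (s : M → EuclideanSpace ℂ ι) (D.sh (-1) (D.sh 1 x)) = _
      rw [← D.sh_add]
      simp)
    (by
      ext s x : 3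
      change (s : M → EuclideanSpace ℂ ι) (D.sh 1 (D.sh (-1) x)) = _
      rw [← D.sh_add]
      simp)

theorem sec_triv_apply {s : M → EuclideanSpace ℂ ι} (hs : (LB.triv i₀ : LB M ι).Sec s) (x : M) :
    s x = EuclideanSpace.single i₀ (s x i₀) := by
  have h := hs x
  ext j
  have h2 : (LB.act (Matrix.single i₀ i₀ 1) (s x)) j = s x j := by
    have := congrArg (fun v : EuclideanSpace ℂ ι => v j) h
    exact this
  rw [← h2]
  simp only [LB.act, Matrix.mulVec, dotProduct, Matrix.single_apply, PiLp.single_apply]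
  by_cases hj : j = i₀
  · subst hj
    simp
  · have : ∀ k, ¬ (i₀ = j ∧ i₀ = k) := fun k hk => hj hk.1.symm
    simp [this, hj]

theorem triv_comp_hol {κ : ℤ} {s : M → EuclideanSpace ℂ ι} (hs : Reg0 ∞ κ s)
    (hd : ∀ x, (LB.triv i₀ : LB M ι).db0 (fun _ => 0) κ s x = 0) :
    Reg0 ∞ κ (fun x => s x i₀) ∧ ∀ x i, dbar0 κ (fun x => s x i₀) x i = 0 := by
  set T : EuclideanSpace ℂ ι →L[ℂ] ℂ := EuclideanSpace.proj i₀
  refine ⟨reg0_iff_at.2 fun x => (hs.at x).clm T, fun x i => ?_⟩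
  have h1 : dbar0 κ (fun x => T (s x)) x i = T (dbar0 κ s x i) :=
    FL.dbar0_clm T ((hs.at x).of_le one_le_infty) i
  change dbar0 κ (fun x => T (s x)) x i = 0
  rw [h1]
  have h2 := congrFun (hd x) i
  simp only [LB.db0, Pi.zero_apply, zero_smul, add_zero] at h2
  have h3 := congrArg (fun v : EuclideanSpace ℂ ι => v i₀) h2
  simp only [LB.act, LB.triv, Matrix.mulVec, dotProduct, Matrix.single_apply] at h3
  have h4 : (dbar0 κ s x i).ofLp i₀ = 0 := by simpa using h3
  exact h4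

/-- the structure needed for (U1) -/
def flqK (hNF : D.NF) (hK : D.NoFloquetK) (i₀ : ι) :
    Flq (HolSec (LB.triv i₀ : LB M ι) (fun _ => 0) 1) where
  α := alpha D 1 (LB.triv i₀) (fun _ => 0)
  T := shSecE D 1 i₀
  sep := alpha_sep D 1
  shift := by
    intro j v
    change D.p0 1 (fun x => (v : M → EuclideanSpace ℂ ι) (D.sh 1 x)) j = D.p0 1 _ (j + 1)
    rw [XTData.p0, XTData.p0, ← D.prof_comp_sh]
    congr 1
    funext x
    exact D.n0_comp_sh 1 1 _ x
  montel := alpha_montel D hNF (isHol_triv i₀) 1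
  nofl := by
    intro v lam hlam hv
    obtain ⟨h1, h2⟩ := triv_comp_hol v.2.1 v.2.2.2
    have h3 := hK lam (fun x => (v : M → EuclideanSpace ℂ ι) x i₀) hlam h1 h2 (fun x => by
      have h4 := congrArg (fun s : HolSec (LB.triv i₀ : LB M ι) (fun _ => 0) 1 =>
        (s : M → EuclideanSpace ℂ ι) x) hv
      have h5 : (v : M → EuclideanSpace ℂ ι) (D.sh 1 x) = lam • (v : M → EuclideanSpace ℂ ι) x := h4
      rw [D.sh_one] at h5
      rw [h5]
      rfl)
    refine Subtype.ext (funext fun x => ?_)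
    rw [sec_triv_apply v.2.2.1 x, h3 x]
    simp

theorem van_triv_K (hNF : D.NF) (hK : D.NoFloquetK) (i₀ : ι) {Λ : ℝ} (hΛ : 0 ≤ Λ) :
    D.Van 1 (LB.triv i₀ : LB M ι) (fun _ => 0) (eg Λ) := by
  rintro v hv hs hd ⟨A, hA⟩ x
  have h := (flqK D hNF hK i₀).eq_zero_of_exp (N := Λ) (C := A) hΛ
    (v := ⟨v, hv, hs, fun x => funext fun i => hd x i⟩) hA
  exact congrFun (congrArg Subtype.val h) x

/-- convergence of translates of `(L, a)` to the trivial bundle -/
theorem locConv_triv (hN : 0 < N) (hE : D.EndTriv L i₀ a R N) {k : ℕ → ℤ}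
    (hk : Tendsto (fun n => |k n|) atTop atTop) :
    LocConv D (fun n => (D.shL (k n) L, fun x => a (D.sh (k n) x))) (LB.triv i₀, fun _ => 0) := by
  have hinf : ∀ R : ℝ, ∀ᶠ n in atTop, R < |(k n : ℝ)| := by
    intro R
    have := (tendsto_intCast_atTop_iff (R := ℝ)).2 hk
    filter_upwards [this.eventually_gt_atTop R] with n hn
    push_cast at hn
    exact hn
  refine ⟨fun j => ?_, ?_⟩
  · filter_upwards [hinf (R + |(j : ℝ)| + 1)] with n hn x hx
    have h1 := slab_abs_le D hx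
    refine hE.ends _ ?_
    rw [D.f_sh]
    have h2 : |((k n : ℤ) : ℝ)| ≤ |D.f x + (k n : ℝ)| + |D.f x| := by
      have := abs_sub (D.f x + (k n : ℝ)) (D.f x)
      simpa using this
    linarith
  · obtain ⟨C, hC⟩ := hE.decay
    refine tend1_of_bound D fun j ε hε => ?_
    obtain ⟨T, hT⟩ := exp_small hN C hε
    filter_upwards [hinf (T + |(j : ℝ)| + 1)] with n hn x hx
    have h1 := slab_abs_le D hx
    have h2 : |((k n : ℤ) : ℝ)| ≤ |D.f x + (k n : ℝ)| + |D.f x| := by
      have := abs_sub (D.f x + (k n : ℝ)) (D.f x)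
      simpa using this
    simp only [sub_zero]
    rw [D.n1_comp_sh 0 (k n) a x]
    refine (hC _).trans (hT _ ?_)
    rw [D.f_sh]
    linarith

/-- superexponentially decaying holomorphic sections vanish (maximum principle) -/
def SuperVan (κ : ℤ) (L : LB M ι) (a : M → Fin 2 → ℂ) : Prop :=
  ∀ v : M → EuclideanSpace ℂ ι, Reg0 ∞ κ v → L.Sec v → (∀ x, L.db0 a κ v x = 0) →
    (∀ T : ℝ, ∃ A, ∀ j, D.p0 κ v j ≤ A * eg (-T) j) → ∀ x, v x = 0

/-- **(VK)** -/
theorem vanK (hNF : D.NF) (hK : D.NoFloquetK) (hN : 0 < N) (hE : D.EndTriv L i₀ a R N)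
    (hS : SuperVan D 1 L a) {Λ : ℝ} (hΛ : 0 ≤ Λ) : D.Van 1 L a (eg Λ) := by
  rintro v hv hs hd ⟨A, hA⟩ x
  have h := (flqK D hNF hK i₀).eq_zero_twisted (alpha D 1 L a) ?_ ?_ (N := Λ) (C := A) hΛ
    (v' := ⟨v, hv, hs, fun x => funext fun i => hd x i⟩) hA
  · exact congrFun (congrArg Subtype.val h) x
  · intro v' T c hc hb
    set t : ℕ → ℂ := fun n => ((alpha D 1 L a (c n) v')⁻¹ : ℝ) with ht
    have ht0 : ∀ n, 0 < (alpha D 1 L a (c n) v')⁻¹ := fun n => inv_pos.2 (hb n).1
    have htn : ∀ n, t n ≠ 0 := fun n => by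
      simp only [ht]
      exact_mod_cast (ht0 n).ne'
    have htnorm : ∀ n, ‖t n‖ = (alpha D 1 L a (c n) v')⁻¹ := fun n => by
      simp only [ht]
      rw [Complex.norm_real, Real.norm_eq_abs, abs_of_pos (ht0 n)]
    set u : ℕ → M → EuclideanSpace ℂ ι := fun n x =>
      t n • (v' : M → EuclideanSpace ℂ ι) (D.sh (c n) x) with hu
    have hur : ∀ n, Reg0 ∞ 1 fun x => (v' : M → EuclideanSpace ℂ ι) (D.sh (c n) x) := fun n =>
      (D.chartMap_sh (c n)).reg0_comp v'.2.1
    have hp : ∀ n j, D.p0 1 (u n) j = (alpha D 1 L a (c n) v')⁻¹ * alpha D 1 L a (c n + j) v' := by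
      intro n j
      rw [hu]
      simp only
      rw [p0_smul D 1 (htn n), htnorm]
      congr 1
      rw [alpha_apply, add_comm, XTData.p0, XTData.p0, ← D.prof_comp_sh]
      congr 1
      funext x
      exact D.n0_comp_sh 1 (c n) _ x
    have hdb : ∀ n x, (D.shL (c n) L).db0 (fun x => a (D.sh (c n) x)) 1 (u n) x = 0 := by
      intro n x
      have h1 := db0_const_smul (L := D.shL (c n) L) (a := fun x => a (D.sh (c n) x)) (hur n) (t n) x
      rw [h1]
      have h2 := (D.chartMap_sh (c n)).lb_db0 L a 1 (v' : M → EuclideanSpace ℂ ι) x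
      have h3 : (D.shL (c n) L).db0 (fun x => a (D.sh (c n) x)) 1
          (fun x => (v' : M → EuclideanSpace ℂ ι) (D.sh (c n) x)) x = 0 := by
        rw [v'.2.2.2] at h2
        exact h2
      rw [h3, smul_zero]
    have hconv := locConv_triv D hN hE hc
    obtain ⟨φ, hφ, w, hw1, hw2, hw3, hw4⟩ := hNF ι 1 (LB.triv i₀) (fun _ => 0)
      (fun n => D.shL (c n) L) (fun n x => a (D.sh (c n) x)) (fun _ => 0) u (isHol_triv i₀)
      (fun n => (D.chartMap_sh (c n)).lb_isHol hE.hol) hconv.1 hconv.2 reg1_zero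
      (fun x i => by simp [act_zero]) (fun x => db1_zero 1 _ _ x)
      (fun n => reg0_const_smul (hur n) _)
      (fun n x => by
        have := (D.chartMap_sh (c n)).lb_sec v'.2.2.1 x
        simp only [hu, act_smul]
        rw [show (D.shL (c n) L).P x = ((D.chartMap_sh (c n)).lb L).P x from rfl, this])
      (fun j => ⟨eg T j, fun n => by
        rw [hp, inv_mul_le_iff₀ (hb n).1, mul_comm]
        exact (hb n).2 j⟩)
      (fun j => by
        have e : ∀ n, D.p1 1 (fun x => (D.shL (c n) L).db0 (fun x => a (D.sh (c n) x)) 1 (u n) x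
            - 0) j = 0 := by
          intro n
          refine prof_eq_zero D (n1_nonneg D 1 _) fun x hx => n1_zero_at D ?_
          simp only [hdb n x, sub_zero]
        simp only [e]
        exact tendsto_const_nhds)
    have hu1 : ∀ n, Reg0 ∞ 1 (u n) := fun n => reg0_const_smul (hur n) _
    refine ⟨⟨w, hw1, hw2, fun x => funext fun i => hw3 x i⟩, ?_, 1, fun j => ?_⟩
    · intro h0
      change D.p0 1 w 0 = 0 at h0
      have h1 : ∀ n, D.p0 1 (u (φ n)) 0 = 1 := by
        intro n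
        rw [hp, add_zero, inv_mul_cancel₀ (hb _).1.ne']
      have h2 : ∀ n, 1 ≤ D.p0 1 (fun x => u (φ n) x - w x) 0 := by
        intro n
        rw [← h1 n]
        refine D.prof_le (D.prof_nonneg (n0_nonneg D 1 _) 0) fun x hx => ?_
        have h3 := n0_add_le D 1 (fun x => u (φ n) x - w x) w x
        simp only [sub_add_cancel] at h3
        have h4 : n0 D.h 1 w x ≤ 0 := (D.le_prof (cont_n0 D hw1) hx).trans h0.le
        have h5 := D.le_prof (cont_n0 D (reg0_sub' (hu1 (φ n)) hw1)) hx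
        change n0 D.h 1 (u (φ n)) x ≤ _
        have h6 : D.prof (n0 D.h 1 (fun x => u (φ n) x - w x)) 0 =
          D.p0 1 (fun x => u (φ n) x - w x) 0 := rfl
        linarith
      have h7 := ge_of_tendsto' (hw4 0) h2
      norm_num at h7
    · change D.p0 1 w j ≤ 1 * eg T j
      rw [one_mul]
      refine p0_bound_of_lim D hw1 (fun n => hu1 (φ n)) hw4 fun n => ?_
      rw [hp, inv_mul_le_iff₀ (hb _).1, mul_comm]
      exact (hb _).2 j
  · intro v' hv'
    have := hS (v' : M → EuclideanSpace ℂ ι) v'.2.1 v'.2.2.1 v'.2.2.2 hv'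
    exact Subtype.ext (funext this)

end Vale.Agent.P267.H359
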